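import Vale.Agent.P112.Top.Defs
import Vale.Agent.P112.F30.DefsP

/-!
# P112, chapter (G), route 2 (helper646, note 16686; frozen page 17207 of helper112): literal Props

`StGs ⇐ FF0 + SPLIT + LOW + DEPTH + GAIN + MASS`. Version 3.1. `ε` = Lipschitz constant of `u` in `y`
(tiny), `Q` = separation, `H ≥ Q ^ 3` = height of the trees of (FF0).
-/

open MeasureTheory Set
open scoped ENNReal

set_option linter.dupNamespace false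

namespace Vale.Agent.P112.R2

open T F30

/-! ### Families of trees -/

/-- A finite family of trees: slope, intercept of the line, sources at the scales. -/
structure Tr where
  ι : Type
  fin : Fintype ι
  s : ι → ℝ
  c : ι → ℝ
  E : ι → ℕ → Set (ℝ × ℝ)

attribute [instance] Tr.fin

/-- The offset of `z` relative to the line of the tree `i`. -/
def Tr.off (F : Tr) (i : F.ι) (z : ℝ × ℝ) : ℝ := z.2 - (F.c i + F.s i * z.1)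

/-- Basic properties: slope tolerance `A`, half width `w`, convexity in the scale, every point
belongs to one tree. -/
structure Tr.Ok (F : Tr) (u : ℝ × ℝ → ℝ) (P : ℕ → Set (ℝ × ℝ)) (A w : ℝ) : Prop where
  meas : ∀ i j, MeasurableSet (F.E i j)
  sub : ∀ i j, F.E i j ⊆ P j
  slope : ∀ i j, ∀ z ∈ F.E i j, |u z - F.s i| ≤ A * 2 ^ j
  line : ∀ i j, ∀ z ∈ F.E i j, |F.off i z| ≤ w
  conv : ∀ i z, ∀ j k l : ℕ, j ≤ k → k ≤ l → z ∈ F.E i j → z ∈ F.E i l → z ∈ F.E i k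
  uniq : ∀ i i' j j' z, z ∈ F.E i j → z ∈ F.E i' j' → i = i'

/-- `Q`-separation of the pairs which meet (pair against pair; `j' ≤ j`), offset tolerance `D`. -/
def Tr.SepP (F : Tr) (Q D : ℝ) : Prop :=
  ∀ i i' j j', i ≠ i' → j' ≤ j → ∀ z ∈ F.E i j, ∀ z' ∈ F.E i' j', |z.1 - z'.1| ≤ 4 / 2 ^ j' →
    |F.off i' z| ≤ D → Q * 2 ^ j ≤ |F.s i - F.s i'|

/-- The sum of the trees. -/
noncomputable def Tr.sum {M : ℕ} (κ : Ker M) (F : Tr) (u g : ℝ × ℝ → ℝ) (n : ℕ)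
    (ζ : ℝ × ℝ) : ℝ :=
  ∑ i, κ.FS u g (F.E i) n ζ

/-- `P` is the disjoint union of the sources of the families `F k` and of `R`. -/
def Part {K : ℕ} (P : ℕ → Set (ℝ × ℝ)) (F : Fin K → Tr) (R : ℕ → Set (ℝ × ℝ)) : Prop :=
  ∀ j z, (P j).indicator (1 : ℝ × ℝ → ℝ) z =
    (∑ k, ∑ i, ((F k).E i j).indicator (1 : ℝ × ℝ → ℝ) z) + (R j).indicator (1 : ℝ × ℝ → ℝ) z

/-- Top cells of the trees of a family (grid `τ`, level `lev i`, cell `m i`). -/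
structure Cells (F : Tr) where
  τ : ℝ
  lev : F.ι → ℕ
  m : F.ι → ℤ

/-- Every pair `(z, j)` of the tree `i` is `16 / 2 ^ j`-inside the top cell. -/
def Cells.Marg {F : Tr} (G : Cells F) : Prop :=
  ∀ i j, ∀ z ∈ F.E i j, ∀ x : ℝ, |x - z.1| ≤ 16 / 2 ^ j → q G.τ (G.lev i) x = G.m i

/-- Weak separation (source form) against the longer tops, sharp cell, offset tolerance `D`. -/
def Cells.Sep0 {F : Tr} (G : Cells F) (u : ℝ × ℝ → ℝ) (A D : ℝ) : Prop :=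
  ∀ i i' j, i ≠ i' → G.lev i' ≤ j → ∀ z ∈ F.E i j, q G.τ (G.lev i') z.1 = G.m i' →
    |F.off i' z| ≤ D → 60 * A * 2 ^ j ≤ |u z - F.s i'|

/-! ### [FF0] (owners helper788, helper30; 723, 314) -/

/-- Every system inside one density level (scales `≥ C`) is the disjoint union of polylog many
weakly separated families of trees (tolerances `a k` between `a0` and `C a0`, half width `H / 2`,
offset tolerance `32 H` in the separation) and a system of tiny mass. -/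
def StFF0 : Prop := ∃ C : ℕ, 1 ≤ C ∧ ∀ (u : ℝ × ℝ → ℝ), Field u →
  ∀ E0 : Set (ℝ × ℝ), MeasurableSet E0 → (∃ r : ℝ, ∀ z ∈ E0, |z.1| ≤ r ∧ |z.2| ≤ r) →
  ∀ (n ν : ℕ) (P : ℕ → Set (ℝ × ℝ)), PSys n P → (∀ j, P j ⊆ Pd u E0 4 n ν j) →
  (∀ j, (P j).Nonempty → C ≤ j) →
  ∀ a0 H X : ℝ, C * 2 ^ ν ≤ a0 → C * a0 ≤ H → 1 ≤ X →
    ∃ (K : ℕ) (F : Fin K → Tr) (G : ∀ k, Cells (F k)) (a : Fin K → ℝ) (R : ℕ → Set (ℝ × ℝ)),
      (K : ℝ) ≤ C * (a0 * (Real.log H + X)) ^ C ∧ (∀ k, a0 ≤ a k ∧ a k ≤ C * a0) ∧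
      (∀ k, (F k).Ok u P (a k) (H / 2)) ∧ (∀ k, (G k).Marg) ∧
      (∀ k, (G k).Sep0 u (a k) (32 * H)) ∧
      PSys n R ∧ (∀ j, R j ⊆ P j) ∧
      volume (Un R n) ≤ ENNReal.ofReal (Real.exp (-X)) * volume E0 ∧ Part P F R

/-! ### [SPLIT] (owner helper540) -/

/-- The support of the kernel: `ζ` sees the pair `(z, j)`. -/
def Over (u : ℝ × ℝ → ℝ) (j : ℕ) (z ζ : ℝ × ℝ) : Prop :=
  |z.1 - ζ.1| ≤ 1 / (8 * 2 ^ j) ∧ |z.2 - ζ.2 - (z.1 - ζ.1) * u z| ≤ 1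

/-- `i'` is a witness of the pair `(z, j)` of the tree `i` being bad: a longer top, near `z`
(with margin), with slope closer than `Q 2 ^ j`. -/
def Cells.Wit {F : Tr} (G : Cells F) (Q H : ℝ) (i : F.ι) (j : ℕ) (z : ℝ × ℝ) (i' : F.ι) : Prop :=
  i' ≠ i ∧ (∀ x : ℝ, |x - z.1| ≤ 8 / 2 ^ j → q G.τ (G.lev i') x = G.m i') ∧
    |F.off i' z| ≤ 2 * H ∧ |F.s i - F.s i'| < Q * 2 ^ j

/-- The good part. -/
def Cells.good {F : Tr} (G : Cells F) (Q H : ℝ) : Tr where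
  ι := F.ι
  fin := F.fin
  s := F.s
  c := F.c
  E := fun i j => {z | z ∈ F.E i j ∧ ∀ i', ¬ G.Wit Q H i j z i'}

/-- The bad part. -/
def Cells.bad {F : Tr} (G : Cells F) (Q H : ℝ) : Tr where
  ι := F.ι
  fin := F.fin
  s := F.s
  c := F.c
  E := fun i j => {z | z ∈ F.E i j ∧ ∃ i', G.Wit Q H i j z i'}

/-- [SPLIT]. Good part: ready for [GAIN]. Bad part: again trees; two bad pairs of one tree whose
`x` differ by `4 / 2 ^ min` have scales within the window `Q`. -/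
def StSplit : Prop := ∀ (u : ℝ × ℝ → ℝ), Field u → ∀ (P : ℕ → Set (ℝ × ℝ)) (F : Tr)
  (G : Cells F) (A H Q : ℝ), 1 ≤ A → A ≤ Q → Q ≤ H → F.Ok u P A (H / 2) → G.Marg →
  G.Sep0 u A (32 * H) →
    (G.good Q H).Ok u P A (H / 2) ∧ (G.good Q H).SepP Q (2 * H) ∧
    (G.bad Q H).Ok u P A (H / 2) ∧
    (∀ i j z, (F.E i j).indicator (1 : ℝ × ℝ → ℝ) z =
      ((G.good Q H).E i j).indicator (1 : ℝ × ℝ → ℝ) z +
      ((G.bad Q H).E i j).indicator (1 : ℝ × ℝ → ℝ) z) ∧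
    (∀ i j j' z z', z ∈ (G.bad Q H).E i j → z' ∈ (G.bad Q H).E i j' → j' ≤ j →
      |z.1 - z'.1| ≤ 4 / 2 ^ j' → (2 : ℝ) ^ j ≤ Q * 2 ^ j')

/-! ### own density -/

/-- The thin tile (unit offset) of the tree `i`, level `j`, at `z`. -/
def Tr.tile (F : Tr) (i : F.ι) (j : ℕ) (z : ℝ × ℝ) : Set (ℝ × ℝ) :=
  {z' | q 0 j z'.1 = q 0 j z.1 ∧ ⌊F.off i z'⌋ = ⌊F.off i z⌋}

/-- The pairs of own density `< δ`. -/
noncomputable def Tr.low (F : Tr) (δ : ℝ) : Tr where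
  ι := F.ι
  fin := F.fin
  s := F.s
  c := F.c
  E := fun i j => {z | z ∈ F.E i j ∧
    volume (F.E i j ∩ F.tile i j z) < ENNReal.ofReal (δ / 2 ^ j)}

/-- The pairs of own density `≥ δ`. -/
noncomputable def Tr.high (F : Tr) (δ : ℝ) : Tr where
  ι := F.ι
  fin := F.fin
  s := F.s
  c := F.c
  E := fun i j => {z | z ∈ F.E i j ∧
    ENNReal.ofReal (δ / 2 ^ j) ≤ volume (F.E i j ∩ F.tile i j z)}

/-! ### [LOW] (owner helper158) -/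

/-- [LOW]. The low part of the bad part of a weakly separated family; `2 ^ W ≥ Q`. -/
def StLow {M : ℕ} (κ : Ker M) : Prop := ∃ C : ℕ, 1 ≤ C ∧ ∀ (u : ℝ × ℝ → ℝ), Field u →
  (∀ x y y', |u (x, y) - u (x, y')| ≤ 1 / 64 * |y - y'|) → ∀ (n ν : ℕ) (g : ℝ × ℝ → ℝ), Nice g →
  (∀ z, |g z| ≤ 1) → (∀ z, g z ≠ 0 → z.1 ∈ Ico (0 : ℝ) 1) →
  ∀ (F : Tr) (G : Cells F) (A H Q W δ : ℝ), C * 2 ^ ν ≤ A → A ≤ Q → Q ≤ H → 1 ≤ W →
  Q ≤ 2 ^ W → 0 < δ → δ ≤ 1 → F.Ok u (Pd u {z | g z ≠ 0} 4 n ν) A (H / 2) → G.Marg →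
  G.Sep0 u A (32 * H) →
    ∫ ζ, (((G.bad Q H).low δ).sum κ u g n ζ) ^ 2 ≤
      C * (A * W) ^ C * δ ^ 2 * (volume {z | g z ≠ 0}).toReal

/-! ### [DEPTH] (owner helper818) -/

/-- [DEPTH]. The high part of the bad part splits into polylog many `Q`-separated families
(one-tile trees of half width `Q`) and a rest of tiny mass (at most `W + 1` scales at every
point). -/
def StDepth : Prop := ∃ C : ℕ, 1 ≤ C ∧ ∀ (u : ℝ × ℝ → ℝ), Field u → ∀ ε : ℝ, 0 ≤ ε →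
  (∀ x y y', |u (x, y) - u (x, y')| ≤ ε * |y - y'|) →
  ∀ E0 : Set (ℝ × ℝ), MeasurableSet E0 → (∃ r : ℝ, ∀ z ∈ E0, |z.1| ≤ r ∧ |z.2| ≤ r) →
  ∀ (n ν : ℕ) (F : Tr) (G : Cells F) (A H Q W X δ : ℝ), C ≤ A → A ≤ Q → Q ≤ H → 1 ≤ W →
  Q ≤ 2 ^ W → 1 ≤ X → 0 < δ → δ ≤ 1 →
  C * (A * W * (Real.log H + X) / δ) ^ C * Q ≤ H → ε * H ^ 10 ≤ 1 →
  F.Ok u (Pd u E0 4 n ν) A (H / 2) → G.Marg → G.Sep0 u A (32 * H) →
    ∃ (K : ℕ) (F' : Fin K → Tr) (R : ℕ → Set (ℝ × ℝ)),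
      (K : ℝ) ≤ C * (A * W * (Real.log H + X) / δ) ^ C ∧
      (∀ k, (F' k).Ok u (Pd u E0 4 n ν) A Q) ∧ (∀ k, (F' k).SepP Q (4 * Q)) ∧
      (∀ j, MeasurableSet (R j)) ∧ (∀ j, R j ⊆ Pd u E0 4 n ν j) ∧
      (∀ z j j', z ∈ R j → z ∈ R j' → (j' : ℝ) ≤ j + W) ∧
      volume (Un R n) ≤ ENNReal.ofReal (Real.exp (-X)) * volume E0 ∧
      (∀ j z, ∑ i, (((G.bad Q H).high δ).E i j).indicator (1 : ℝ × ℝ → ℝ) z =
        (∑ k, ∑ i, ((F' k).E i j).indicator (1 : ℝ × ℝ → ℝ) z) +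
          (R j).indicator (1 : ℝ × ℝ → ℝ) z)

/-! ### [GAIN] (owner helper646) -/

/-- [GAIN]. `Q`-separated families of trees of half width `w` have a gain `L ^ (-B)` for every `B`.
The exponent `c2` of `Q = exp (L ^ c2)` depends on `b` only; the width is `w ≤ exp (L ^ c3)` with
any `c3`; the Lipschitz constant is `exp (- L ^ N)`, `N` at the end. -/
def StGain {M : ℕ} (κ : Ker M) : Prop := ∀ b : ℕ, ∃ c2 : ℕ, 1 ≤ c2 ∧ ∀ c3 B : ℕ,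
  ∃ (N : ℕ) (C : ℝ), 1 ≤ C ∧
  ∀ (u : ℝ × ℝ → ℝ), Field u → ∀ (n ν : ℕ) (f g : ℝ × ℝ → ℝ), Nice f → Nice g →
    (∀ z, |f z| ≤ 1) → (∀ z, |g z| ≤ 1) →
    (∀ z, f z ≠ 0 → 1 / 2 ≤ |f z|) → (∀ z, g z ≠ 0 → 1 / 2 ≤ |g z|) →
    (∀ z, g z ≠ 0 → z.1 ∈ Ico (0 : ℝ) 1) →
    0 < volume {z | f z ≠ 0} → 0 < volume {z | g z ≠ 0} →
    ∀ L : ℝ, L = Real.log ((volume {z | g z ≠ 0}).toReal / (volume {z | f z ≠ 0}).toReal) →
    C ≤ L → (ν : ℝ) ≤ b * Real.log L →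
    (∀ x y y', |u (x, y) - u (x, y')| ≤ Real.exp (-L ^ N) * |y - y'|) →
    ∀ (F : Tr) (A w : ℝ), 1 ≤ A → A ≤ L ^ b → Real.exp (L ^ c2) ≤ w → w ≤ Real.exp (L ^ c3) →
      F.Ok u (Pd u {z | g z ≠ 0} 4 n ν) A w →
      F.SepP (Real.exp (L ^ c2)) (4 * w) →
      |∫ ζ, f ζ * F.sum κ u g n ζ| * L ^ B ≤
        C * √((volume {z | f z ≠ 0}).toReal) * √((volume {z | g z ≠ 0}).toReal)

/-! ### [MASS] (owner helper213, by (T3)) -/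

/-- Sources with at most `W + 1` consecutive scales at every point: bound by the mass. -/
def StMass {M : ℕ} (κ : Ker M) : Prop := ∃ C : ℝ, 0 < C ∧ ∀ (u : ℝ × ℝ → ℝ), Field u →
  ∀ (n ν : ℕ) (g : ℝ × ℝ → ℝ), Nice g → (∀ z, |g z| ≤ 1) → ∀ (R : ℕ → Set (ℝ × ℝ)),
  (∀ j, MeasurableSet (R j)) → (∀ j, R j ⊆ Pd u {z | g z ≠ 0} 4 n ν j) → ∀ W : ℝ, 1 ≤ W →
  (∀ z j j', z ∈ R j → z ∈ R j' → (j' : ℝ) ≤ j + W) →
    ∫ ζ, (κ.FS u g R n ζ) ^ 2 ≤ C * W ^ 2 * (volume (Un R n)).toReal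

end Vale.Agent.P112.R2
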