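import Vale.Agent.P112.G.Fin
import Vale.Agent.P112.H788.Fin
import Vale.Agent.P112.H158.Low
import Vale.Agent.P112.H694.Bad
import Vale.Agent.P112.T.MassR
import Vale.Agent.P112.Final.AsmS
import Vale.Agent.P112.H566.Depth

/-!
# P112, chapter (G): the conjecture from [GAIN]
-/

open MeasureTheory Set Filter Topology
open scoped ENNReal

set_option linter.dupNamespace false

namespace Vale.Agent.P112.R2

open T F30

variable {M : ℕ}

/-- [FF0] -/
theorem stFF0 : StFF0 := H788.stFF0_lit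

/-- **Chapter (G)** from [DEPTH] and [GAIN]. -/
theorem stGs_of_depth_gain (hM : 8 ≤ M) {κ : Ker M} (hD : StDepth) (hG : StGain κ) :
    H889.StGs κ :=
  stGs_of hM stFF0 hG (H694.stBad (H158.stLow κ) hD (T.stMass (by omega) κ))

/-- **The conjecture** from [DEPTH] and [GAIN]. -/
theorem stein_of_depth_gain (hM : 8 ≤ M) (hD : StDepth) (hG : ∀ κ : Ker M, StGain κ) :
    ∃ C : ℝ, 0 < C ∧ ∀ v : Plane → Plane, (∀ x, ‖v x‖ = 1) → LipschitzWith 1 v →
      ∀ a : ℝ, 0 < a → a ≤ 1 → StrongType v a C ∧ WeakType v a C :=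
  Final.stein_of_gs hM fun κ => stGs_of_depth_gain hM hD (hG κ)

/-- [DEPTH] -/
theorem stDepth : StDepth := H566.stDepth

/-- **Chapter (G)** from [GAIN]. -/
theorem stGs_of_gain (hM : 8 ≤ M) {κ : Ker M} (hG : StGain κ) : H889.StGs κ :=
  stGs_of_depth_gain hM stDepth hG

/-- **The conjecture** from [GAIN]. -/
theorem stein_of_gain (hM : 8 ≤ M) (hG : ∀ κ : Ker M, StGain κ) :
    ∃ C : ℝ, 0 < C ∧ ∀ v : Plane → Plane, (∀ x, ‖v x‖ = 1) → LipschitzWith 1 v →
      ∀ a : ℝ, 0 < a → a ≤ 1 → StrongType v a C ∧ WeakType v a C :=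
  stein_of_depth_gain hM stDepth hG

end Vale.Agent.P112.R2
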