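import Vale.Agent.P112.G.CompDefs
import Vale.Agent.P112.H540.StSplit
import Vale.Agent.P112.H889.ShortFin

/-!
# P112, chapter (G): composition

`StFF0`, `StGain`, `StBad`, `StR0P` give the target `H889.StGs` of chapter (G).
-/

open MeasureTheory Set Filter Topology
open scoped ENNReal

set_option linter.dupNamespace false

namespace Vale.Agent.P112.R2

open T F30

variable {M : ℕ}

theorem exp_half_pow {L : ℝ} (hL : 0 ≤ L) (B : ℕ) :
    Real.exp (-L / 2) * L ^ B ≤ 2 ^ B * B.factorial := by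
  have h := Real.pow_div_factorial_le_exp (L / 2) (by linarith) B
  rw [div_le_iff₀ (by positivity)] at h
  have h2 : L ^ B = 2 ^ B * (L / 2) ^ B := by
    rw [← mul_pow]
    congr 1
    ring
  have h3 : Real.exp (-L / 2) * Real.exp (L / 2) = 1 := by
    rw [← Real.exp_add, show -L / 2 + L / 2 = 0 by ring, Real.exp_zero]
  calc Real.exp (-L / 2) * L ^ B = 2 ^ B * (Real.exp (-L / 2) * (L / 2) ^ B) := by rw [h2]; ring
    _ ≤ 2 ^ B * (Real.exp (-L / 2) * (Real.exp (L / 2) * B.factorial)) := by gcongr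
    _ = 2 ^ B * B.factorial := by rw [← mul_assoc (Real.exp _), h3, one_mul]

/-- `2 ^ ν ≤ L ^ b`. -/
theorem two_pow_le {L : ℝ} (hL : 1 ≤ L) {ν b : ℕ} (h : (ν : ℝ) ≤ b * Real.log L) :
    (2 : ℝ) ^ ν ≤ L ^ b := by
  have hL0 : 0 < L := by linarith
  have h1 : Real.log 2 ≤ 1 := by
    have := Real.log_two_lt_d9
    linarith
  have h2 : (2 : ℝ) ^ ν = Real.exp (ν * Real.log 2) := by
    rw [← Real.log_pow, Real.exp_log (by positivity)]
  have h3 : L ^ b = Real.exp (b * Real.log L) := by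
    rw [← Real.log_pow, Real.exp_log (by positivity)]
  rw [h2, h3]
  refine Real.exp_le_exp.2 (le_trans ?_ h)
  have : (0 : ℝ) ≤ ν := Nat.cast_nonneg _
  nlinarith

/-- The masses. -/
theorem mass_eq {f g : ℝ × ℝ → ℝ} (hf : Nice f) (hg : Nice g)
    (hfp : 0 < volume {z | f z ≠ 0}) (hgp : 0 < volume {z | g z ≠ 0}) {L : ℝ}
    (hL : L = Real.log ((volume {z | g z ≠ 0}).toReal / (volume {z | f z ≠ 0}).toReal)) :
    0 < (volume {z | f z ≠ 0}).toReal ∧ 0 < (volume {z | g z ≠ 0}).toReal ∧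
    (volume {z | f z ≠ 0}).toReal = Real.exp (-L) * (volume {z | g z ≠ 0}).toReal := by
  have h1 : 0 < (volume {z | f z ≠ 0}).toReal :=
    ENNReal.toReal_pos hfp.ne' (H694.support_ne_top hf)
  have h2 : 0 < (volume {z | g z ≠ 0}).toReal :=
    ENNReal.toReal_pos hgp.ne' (H694.support_ne_top hg)
  refine ⟨h1, h2, ?_⟩
  have h3 : Real.exp L = (volume {z | g z ≠ 0}).toReal / (volume {z | f z ≠ 0}).toReal := by
    rw [hL, Real.exp_log (div_pos h2 h1)]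
  rw [Real.exp_neg, h3]
  field_simp

/-- `|F| = √|F| √|E| exp (-L / 2)` -/
theorem mass_half {V W L : ℝ} (hV : 0 < V) (h : V = Real.exp (-L) * W) :
    V = √V * √W * Real.exp (-L / 2) := by
  have h1 : √V = Real.exp (-L / 2) * √W := by
    conv_lhs => rw [h]
    rw [Real.sqrt_mul (Real.exp_pos _).le, ← Real.exp_half]
  calc V = √V * √V := (Real.mul_self_sqrt hV.le).symm
    _ = √V * (Real.exp (-L / 2) * √W) := by rw [← h1]
    _ = _ := by ring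

/-- The good and the bad part. -/
theorem good_bad {F : Tr} (G : Cells F) {Q H : ℝ}
    (h : ∀ i j z, (F.E i j).indicator (1 : ℝ × ℝ → ℝ) z =
      ((G.good Q H).E i j).indicator (1 : ℝ × ℝ → ℝ) z +
      ((G.bad Q H).E i j).indicator (1 : ℝ × ℝ → ℝ) z) (j : ℕ) (z : ℝ × ℝ) :
    F.wt j z = (G.good Q H).wt j z + (G.bad Q H).wt j z := by
  unfold Tr.wt
  show ∑ i, (F.E i j).indicator (1 : ℝ × ℝ → ℝ) z =
    ∑ i : F.ι, ((G.good Q H).E i j).indicator (1 : ℝ × ℝ → ℝ) z +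
      ∑ i : F.ι, ((G.bad Q H).E i j).indicator (1 : ℝ × ℝ → ℝ) z
  rw [← Finset.sum_add_distrib]
  exact Finset.sum_congr rfl fun i _ => h i j z

theorem Tr.Ok.mono {F : Tr} {u : ℝ × ℝ → ℝ} {P P' : ℕ → Set (ℝ × ℝ)} {A w : ℝ}
    (h : F.Ok u P A w) (hP : ∀ j, P j ⊆ P' j) : F.Ok u P' A w :=
  ⟨h.meas, fun i j => (h.sub i j).trans (hP j), h.slope, h.line, h.conv, h.uniq⟩

/-- The parameters. -/
theorem params (b c2 CF C0 : ℕ) (hc2 : 1 ≤ c2) (hCF1 : 1 ≤ CF) (hC01 : 1 ≤ C0) :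
    ∃ L1 : ℝ, 2 ≤ L1 ∧ ∀ L : ℝ, L1 ≤ L → ∀ ν : ℕ, (ν : ℝ) ≤ b * Real.log L →
      (ν : ℝ) ≤ ((b + 1 : ℕ) : ℝ) * Real.log L ∧
      CF * 2 ^ ν ≤ (CF + C0 : ℝ) * 2 ^ ν ∧ C0 * 2 ^ ν ≤ (CF + C0 : ℝ) * 2 ^ ν ∧
      1 ≤ (CF + C0 : ℝ) * 2 ^ ν ∧ CF * ((CF + C0 : ℝ) * 2 ^ ν) ≤ L ^ (b + 1) ∧
      (CF + C0 : ℝ) * 2 ^ ν ≤ L ^ (b + 1) ∧ L ^ (b + 1) ≤ Real.exp (L ^ c2) ∧
      2 * Real.exp (L ^ c2) ≤ Real.exp (L ^ (c2 + 1)) ∧
      CF * ((CF + C0 : ℝ) * 2 ^ ν * (Real.log (Real.exp (L ^ (c2 + 1))) + L)) ^ CF ≤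
        CF * 2 ^ CF * L ^ ((b + 1 + (c2 + 1)) * CF) := by
  have hev : ∀ᶠ L : ℝ in atTop, L ^ (b + 1) ≤ Real.exp L := by
    have h := Real.isLittleO_pow_exp_atTop (n := b + 1)
    have h2 := h.bound (c := 1) one_pos
    filter_upwards [h2, eventually_ge_atTop (0 : ℝ)] with L h3 h4
    rw [Real.norm_of_nonneg (by positivity), Real.norm_of_nonneg (Real.exp_pos L).le,
      one_mul] at h3
    exact h3
  obtain ⟨L0, hL0⟩ := eventually_atTop.1 hev
  have hCF1' : (1 : ℝ) ≤ CF := by exact_mod_cast hCF1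
  have hC01' : (1 : ℝ) ≤ C0 := by exact_mod_cast hC01
  have hp3 : (0 : ℝ) ≤ CF * (CF + C0) := by positivity
  refine ⟨|L0| + 2 + CF * (CF + C0), by linarith [abs_nonneg L0], ?_⟩
  intro L hCL ν hν
  have habs := abs_nonneg L0
  have hLL0 : L0 ≤ L := (le_abs_self L0).trans (by linarith)
  have hL2 : 2 ≤ L := by linarith
  have hLC : CF * (CF + C0) ≤ L := by linarith
  have hL1 : 1 ≤ L := by linarith
  have hLpos : 0 < L := by linarith
  have hexpL : L ^ (b + 1) ≤ Real.exp L := hL0 L hLL0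
  have hLc2 : 1 ≤ L ^ c2 := one_le_pow₀ hL1
  have hLc2' : L ≤ L ^ c2 := by
    calc L = L ^ 1 := (pow_one L).symm
      _ ≤ L ^ c2 := pow_le_pow_right₀ hL1 hc2
  have hLc3 : L ^ c2 + 1 ≤ L ^ (c2 + 1) := by
    rw [pow_succ]
    nlinarith
  have h2ν : (2 : ℝ) ^ ν ≤ L ^ b := two_pow_le hL1 hν
  have h2ν1 : (1 : ℝ) ≤ 2 ^ ν := one_le_pow₀ (by norm_num)
  set a0 : ℝ := (CF + C0 : ℝ) * 2 ^ ν with ha0
  have ha01 : 1 ≤ a0 := by nlinarith
  have hCa0 : CF * a0 ≤ L ^ (b + 1) := by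
    calc CF * a0 = (CF * (CF + C0)) * 2 ^ ν := by rw [ha0]; ring
      _ ≤ L * L ^ b := by gcongr
      _ = L ^ (b + 1) := by ring
  have ha0L : a0 ≤ L ^ (b + 1) := by nlinarith
  refine ⟨?_, ?_, ?_, ha01, hCa0, ha0L, hexpL.trans (Real.exp_le_exp.2 hLc2'), ?_, ?_⟩
  · have : 0 ≤ Real.log L := Real.log_nonneg hL1
    push_cast
    nlinarith
  · rw [ha0]
    gcongr
    linarith
  · rw [ha0]
    gcongr
    linarith
  · have h1 : (2 : ℝ) ≤ Real.exp 1 := by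
      have := Real.add_one_le_exp (1 : ℝ)
      linarith
    calc 2 * Real.exp (L ^ c2) ≤ Real.exp 1 * Real.exp (L ^ c2) := by gcongr
      _ = Real.exp (L ^ c2 + 1) := by rw [← Real.exp_add, add_comm]
      _ ≤ _ := Real.exp_le_exp.2 hLc3
  · rw [Real.log_exp]
    have hLL : L ≤ L ^ (c2 + 1) := by linarith
    calc CF * (a0 * (L ^ (c2 + 1) + L)) ^ CF
        ≤ CF * (L ^ (b + 1) * (L ^ (c2 + 1) + L ^ (c2 + 1))) ^ CF := by gcongr
      _ = CF * (2 * L ^ (b + 1 + (c2 + 1))) ^ CF := by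
          congr 2
          rw [pow_add L (b + 1) (c2 + 1)]
          ring
      _ = _ := by
          rw [mul_pow, ← pow_mul]
          ring

/-- One family. -/
theorem fam_le (κ : Ker M) {u : ℝ × ℝ → ℝ} (hu : Field u) {F : Tr} (G : Cells F) {Q H : ℝ}
    (hF : ∀ i j, MeasurableSet (F.E i j)) (hg' : ∀ i j, MeasurableSet ((G.good Q H).E i j))
    (hb' : ∀ i j, MeasurableSet ((G.bad Q H).E i j))
    (h : ∀ i j z, (F.E i j).indicator (1 : ℝ × ℝ → ℝ) z =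
      ((G.good Q H).E i j).indicator (1 : ℝ × ℝ → ℝ) z +
      ((G.bad Q H).E i j).indicator (1 : ℝ × ℝ → ℝ) z)
    {f g : ℝ × ℝ → ℝ} (hf : Nice f) (hg : Nice g) (n : ℕ) {T CG CB V W : ℝ} (hT : 0 < T)
    (h1 : |∫ ζ, f ζ * (G.good Q H).sum κ u g n ζ| * T ≤ CG * V * W)
    (h2 : |∫ ζ, f ζ * (G.bad Q H).sum κ u g n ζ| * T ≤ CB * V * W) :
    |∫ ζ, f ζ * F.sum κ u g n ζ| ≤ (CG + CB) * (V * W) / T := by
  have hsum : ∫ ζ, f ζ * F.sum κ u g n ζ =
      (∫ ζ, f ζ * (G.good Q H).sum κ u g n ζ) + ∫ ζ, f ζ * (G.bad Q H).sum κ u g n ζ := by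
    rw [← integral_add (hf.mul (nice_sum κ hu _ hg' hg n)).integrable
      (hf.mul (nice_sum κ hu _ hb' hg n)).integrable]
    refine integral_congr_ae (Eventually.of_forall fun ζ => ?_)
    show f ζ * F.sum κ u g n ζ = f ζ * (G.good Q H).sum κ u g n ζ +
      f ζ * (G.bad Q H).sum κ u g n ζ
    rw [split_sum κ hu hF hg' hb' hg n (good_bad G h) ζ, mul_add]
  rw [le_div_iff₀ hT, hsum]
  calc |(∫ ζ, f ζ * (G.good Q H).sum κ u g n ζ) + ∫ ζ, f ζ * (G.bad Q H).sum κ u g n ζ| * T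
      ≤ (|∫ ζ, f ζ * (G.good Q H).sum κ u g n ζ| +
        |∫ ζ, f ζ * (G.bad Q H).sum κ u g n ζ|) * T := by
        gcongr
        exact abs_add_le _ _
    _ ≤ CG * V * W + CB * V * W := by
        rw [add_mul]
        exact add_le_add h1 h2
    _ = _ := by ring

/-- The final sum. -/
theorem final_le {X X' K K1 Lc LB S CR CJ V Y D r L : ℝ} (hLc : 0 < Lc) (hLB : 0 < LB)
    (hS : 0 ≤ S) (hY : 0 ≤ Y) (hCJ : 0 ≤ CJ) (hK : K ≤ K1 * Lc)
    (h1 : |X'| ≤ K * (S * Y / (LB * Lc)) + r) (hr : r ≤ CR * Y / LB)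
    (h2 : |X - X'| ≤ CJ * V) (hV : V = Y * Real.exp (-L / 2))
    (hD : Real.exp (-L / 2) * LB ≤ D) :
    |X| * LB ≤ (CJ * D + CR + K1 * S) * Y := by
  have h3 : |X'| * LB ≤ K1 * S * Y + CR * Y := by
    calc |X'| * LB ≤ (K * (S * Y / (LB * Lc)) + CR * Y / LB) * LB := by
          gcongr
          exact h1.trans (by gcongr)
      _ = K / Lc * (S * Y) + CR * Y := by field_simp
      _ ≤ K1 * (S * Y) + CR * Y := by
          have h4 : K / Lc ≤ K1 := by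
            rw [div_le_iff₀ hLc]
            exact hK
          gcongr
      _ = _ := by ring
  have h4 : |X - X'| * LB ≤ CJ * D * Y := by
    calc |X - X'| * LB ≤ (CJ * V) * LB := by gcongr
      _ = CJ * Y * (Real.exp (-L / 2) * LB) := by rw [hV]; ring
      _ ≤ CJ * Y * D := by gcongr
      _ = _ := by ring
  have h5 : |X| ≤ |X - X'| + |X'| := by
    have := abs_add_le (X - X') X'
    rwa [sub_add_cancel] at this
  calc |X| * LB ≤ (|X - X'| + |X'|) * LB := by gcongr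
    _ ≤ CJ * D * Y + (K1 * S * Y + CR * Y) := by
        rw [add_mul]
        exact add_le_add h4 h3
    _ = _ := by ring

theorem exp_neg_le_half {x : ℝ} (hx : 1 ≤ x) : Real.exp (-x) ≤ 1 / 2 := by
  have h2 : (2 : ℝ) ≤ Real.exp 1 := by
    have := Real.add_one_le_exp (1 : ℝ)
    linarith
  calc Real.exp (-x) ≤ Real.exp (-1) := Real.exp_le_exp.2 (by linarith)
    _ = (Real.exp 1)⁻¹ := Real.exp_neg 1
    _ ≤ 1 / 2 := by
      rw [one_div]
      exact inv_anti₀ (by norm_num) h2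

theorem lip_mono {u : ℝ × ℝ → ℝ} {L : ℝ} (hL : 1 ≤ L) {N N' : ℕ} (hN : N ≤ N')
    (h : ∀ x y y', |u (x, y) - u (x, y')| ≤ Real.exp (-L ^ N') * |y - y'|) (x y y' : ℝ) :
    |u (x, y) - u (x, y')| ≤ Real.exp (-L ^ N) * |y - y'| := by
  refine (h x y y').trans ?_
  have : L ^ N ≤ L ^ N' := pow_le_pow_right₀ hL hN
  gcongr

/-- **Composition of chapter (G)**. -/
theorem comp {κ : Ker M} (hFF : StFF0) (hGain : StGain κ) (hBad : StBad κ) (hR : StR0P κ) :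
    H889.StGs κ := by
  intro b B
  obtain ⟨CF, hCF1, hFF⟩ := hFF
  obtain ⟨C0, hC01, hBad⟩ := hBad
  obtain ⟨c2, hc2, hGA⟩ := hGain (b + 1)
  obtain ⟨CR, hCR1, hRest⟩ := H694.rest_gain hR B
  obtain ⟨CJ, hCJ, hcut⟩ := Long.long_cut κ
  obtain ⟨NG, CG, hCG1, hG⟩ := hGA (c2 + 1) (B + (b + 1 + (c2 + 1)) * CF)
  obtain ⟨NB, CB, hCB1, hB⟩ := hBad (b + 1) c2 (B + (b + 1 + (c2 + 1)) * CF) (by omega) hc2 hGA
  obtain ⟨L1, hL1, hpar⟩ := params b c2 CF C0 hc2 hCF1 hC01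
  have hp1 : 0 ≤ CJ * CF * (2 ^ B * (B.factorial : ℝ)) := by positivity
  have hp2 : 0 ≤ (CF * 2 ^ CF : ℝ) * (CG + CB) := by positivity
  refine ⟨max NG NB, L1 + CG + CB +
    (CJ * CF * (2 ^ B * (B.factorial : ℝ)) + CR + CF * 2 ^ CF * (CG + CB)), by linarith, ?_⟩
  intro u hu n ν P f g hf hg hf1 hg1 hf2 hg2 hst hfp hgp hP hPs L hL hCL hlip hν
  obtain ⟨hν', ha0F, ha0C, ha01, hCa0, ha0L, hLQ, hQH2, hK1⟩ := hpar L (by linarith) ν hν
  have hL1' : 1 ≤ L := by linarith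
  have hQ0 : 0 < Real.exp (L ^ c2) := Real.exp_pos _
  obtain ⟨hV, hW, hVW⟩ := mass_eq hf hg hfp hgp hL
  have hcut1 := hcut u hu _ (exp_neg_le_half (one_le_pow₀ hL1' (n := max NG NB))) hlip n CF f g
    hf hg hf1 hg1 P hP.meas
  have hsub' : ∀ j, Long.cut CF P j ⊆ Pd u {z | g z ≠ 0} 4 n ν j := fun j =>
    (Long.cut_sub CF P j).trans (hPs j)
  obtain ⟨K, F, G, a, R, hK, ha, hOk, hMarg, hSep, hRP, hRsub, hRvol, hPart⟩ :=
    hFF u hu {z | g z ≠ 0} (H694.support_meas hg) (H694.support_bdd hg) n ν (Long.cut CF P)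
      (Long.PSys.cut hP CF) hsub' (fun j ⟨z, hz⟩ => hz.1)
      _ (Real.exp (L ^ (c2 + 1))) L ha0F (by linarith [hCa0.trans hLQ]) hL1'
  have hRW : (volume (Un R n)).toReal ≤ Real.exp (-L) * (volume {z | g z ≠ 0}).toReal := by
    have h1 := ENNReal.toReal_mono (ENNReal.mul_ne_top ENNReal.ofReal_ne_top
      (H694.support_ne_top hg)) hRvol
    rwa [ENNReal.toReal_mul, ENNReal.toReal_ofReal (Real.exp_pos _).le] at h1
  have hrest := hRest u hu n f g R hf hg hf1 hg1 hRP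
    (fun j z hz => (hsub' j (hRsub j hz)).1) L hL1' hRW
  have hLp : 0 < L ^ (B + (b + 1 + (c2 + 1)) * CF) := by positivity
  have hfam : ∀ k, |∫ ζ, f ζ * (F k).sum κ u g n ζ| ≤
      (CG + CB) * (√((volume {z | f z ≠ 0}).toReal) * √((volume {z | g z ≠ 0}).toReal)) /
        L ^ (B + (b + 1 + (c2 + 1)) * CF) := by
    intro k
    have hOk' : (F k).Ok u (Pd u {z | g z ≠ 0} 4 n ν) (a k) (Real.exp (L ^ (c2 + 1)) / 2) :=
      (hOk k).mono hsub'
    have hak1 : 1 ≤ a k := ha01.trans (ha k).1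
    have hakL : a k ≤ L ^ (b + 1) := (ha k).2.trans hCa0
    obtain ⟨hgo, hgs, hbo, hind, -⟩ := H540.stSplit u hu _ (F k) (G k) (a k)
      (Real.exp (L ^ (c2 + 1))) (Real.exp (L ^ c2)) hak1 (hakL.trans hLQ) (by linarith)
      hOk' (hMarg k) (hSep k)
    have hgs' : ((G k).good (Real.exp (L ^ c2)) (Real.exp (L ^ (c2 + 1)))).SepP
        (Real.exp (L ^ c2)) (4 * (Real.exp (L ^ (c2 + 1)) / 2)) := by
      rwa [show 4 * (Real.exp (L ^ (c2 + 1)) / 2) = 2 * Real.exp (L ^ (c2 + 1)) by ring]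
    exact fam_le κ hu (G k) hOk'.meas hgo.meas hbo.meas hind hf hg n hLp
      (hG u hu n ν f g hf hg hf1 hg1 hf2 hg2 hst hfp hgp L hL (by linarith) hν'
        (lip_mono hL1' (le_max_left _ _) hlip) _ (a k) _ hak1 hakL (by linarith)
        (by linarith) hgo hgs')
      (hB u hu n ν f g hf hg hf1 hg1 hf2 hg2 hst hfp hgp L hL (by linarith) hν'
        (lip_mono hL1' (le_max_right _ _) hlip) (F k) (G k) (a k) (ha0C.trans (ha k).1) hakL
        hOk' (hMarg k) (hSep k))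
  have hΦ : ∀ ζ, κ.FS u g (Long.cut CF P) n ζ =
      ∑ k, (F k).sum κ u g n ζ + κ.FS u g R n ζ := by
    intro ζ
    rw [FS_eq]
    exact part_sum κ hu (fun k => (hOk k).meas) hRP.meas hg n (fun j z => hPart j z) ζ
  have hP1 := abs_part_le κ hu (Φ := κ.FS u g (Long.cut CF P) n) (fun k => (hOk k).meas)
    hRP.meas hf hg n hΦ hfam le_rfl
  rw [pow_add] at hP1
  have hr : |∫ ζ, f ζ * κ.FS u g R n ζ| ≤
      CR * (√((volume {z | f z ≠ 0}).toReal) * √((volume {z | g z ≠ 0}).toReal)) / L ^ B := by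
    rw [le_div_iff₀ (by positivity), ← mul_assoc]
    exact hrest
  have hfin := final_le (X := ∫ ζ, f ζ * κ.FS u g P n ζ) (by positivity) (by positivity)
    (by linarith) (by positivity) (by positivity) (hK.trans hK1) hP1 hr hcut1
    (mass_half hV hVW) (exp_half_pow (by linarith : (0:ℝ) ≤ L) B)
  refine hfin.trans ?_
  rw [mul_assoc (L1 + CG + CB + _)]
  refine mul_le_mul_of_nonneg_right ?_ (by positivity)
  linarith

end Vale.Agent.P112.R2
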