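import Vale.Agent.P112.G.R2
import Vale.Agent.P112.Top.Lin
import Vale.Agent.P112.H694.Acc
import Vale.Agent.P112.H314.Long

/-!
# P112, chapter (G): composition, linear bookkeeping
-/

open MeasureTheory Set Filter Topology
open scoped ENNReal

set_option linter.dupNamespace false

namespace Vale.Agent.P112.R2

open T F30

variable {M : ℕ}

/-- `Σ_{j < n} S_j (w_j g)` -/
noncomputable def FSw (κ : Ker M) (u : ℝ × ℝ → ℝ) (w : ℕ → ℝ × ℝ → ℝ) (g : ℝ × ℝ → ℝ) (n : ℕ)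
    (ζ : ℝ × ℝ) : ℝ :=
  ∑ j ∈ Finset.range n, κ.S u j (fun z => w j z * g z) ζ

/-- The weight of a family of trees. -/
noncomputable def Tr.wt (F : Tr) (j : ℕ) (z : ℝ × ℝ) : ℝ :=
  ∑ i, (F.E i j).indicator (1 : ℝ × ℝ → ℝ) z

theorem ind_mul (E : Set (ℝ × ℝ)) (g : ℝ × ℝ → ℝ) (z : ℝ × ℝ) :
    E.indicator (1 : ℝ × ℝ → ℝ) z * g z = E.indicator g z := by
  by_cases h : z ∈ E
  · simp [h]
  · simp [h]

theorem nice_ind {E : Set (ℝ × ℝ)} (hE : MeasurableSet E) {g : ℝ × ℝ → ℝ} (hg : Nice g) :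
    Nice fun z => E.indicator (1 : ℝ × ℝ → ℝ) z * g z := by
  have : (fun z => E.indicator (1 : ℝ × ℝ → ℝ) z * g z) = E.indicator g :=
    funext fun z => ind_mul E g z
  rw [this]
  exact hg.indicator hE

theorem FS_eq (κ : Ker M) (u : ℝ × ℝ → ℝ) (E : ℕ → Set (ℝ × ℝ)) (g : ℝ × ℝ → ℝ) (n : ℕ)
    (ζ : ℝ × ℝ) :
    κ.FS u g E n ζ = FSw κ u (fun j z => (E j).indicator (1 : ℝ × ℝ → ℝ) z) g n ζ := by
  unfold Ker.FS FSw
  refine Finset.sum_congr rfl fun j _ => ?_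
  congr 1
  exact (funext fun z => ind_mul (E j) g z).symm

theorem FSw_add (κ : Ker M) {u : ℝ × ℝ → ℝ} (hu : Field u) {w w' : ℕ → ℝ × ℝ → ℝ}
    {g : ℝ × ℝ → ℝ} (hw : ∀ j, Nice fun z => w j z * g z) (hw' : ∀ j, Nice fun z => w' j z * g z)
    (n : ℕ) (ζ : ℝ × ℝ) :
    FSw κ u (fun j z => w j z + w' j z) g n ζ = FSw κ u w g n ζ + FSw κ u w' g n ζ := by
  unfold FSw
  rw [← Finset.sum_add_distrib]
  refine Finset.sum_congr rfl fun j _ => ?_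
  rw [← TOP.S_add κ hu j (hw j) (hw' j) ζ]
  congr 1
  funext z
  ring

theorem FSw_sum (κ : Ker M) {u : ℝ × ℝ → ℝ} (hu : Field u) {ι : Type*} (s : Finset ι)
    {w : ι → ℕ → ℝ × ℝ → ℝ} {g : ℝ × ℝ → ℝ} (hw : ∀ i, ∀ j, Nice fun z => w i j z * g z)
    (n : ℕ) (ζ : ℝ × ℝ) :
    FSw κ u (fun j z => ∑ i ∈ s, w i j z) g n ζ = ∑ i ∈ s, FSw κ u (w i) g n ζ := by
  unfold FSw
  rw [Finset.sum_comm]
  refine Finset.sum_congr rfl fun j _ => ?_
  rw [← H694.S_sum κ hu j s (fun i _ => hw i j) ζ]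
  congr 1
  funext z
  rw [Finset.sum_mul]

theorem sum_eq (κ : Ker M) {u : ℝ × ℝ → ℝ} (hu : Field u) (F : Tr)
    (hm : ∀ i j, MeasurableSet (F.E i j)) {g : ℝ × ℝ → ℝ} (hg : Nice g) (n : ℕ) (ζ : ℝ × ℝ) :
    F.sum κ u g n ζ = FSw κ u F.wt g n ζ := by
  have := FSw_sum κ hu (Finset.univ : Finset F.ι)
    (w := fun i j z => (F.E i j).indicator (1 : ℝ × ℝ → ℝ) z) (g := g)
    (fun i j => nice_ind (hm i j) hg) n ζ
  unfold Tr.wt
  rw [this]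
  unfold Tr.sum
  exact Finset.sum_congr rfl fun i _ => FS_eq κ u (F.E i) g n ζ

theorem nice_wt {F : Tr} (hm : ∀ i j, MeasurableSet (F.E i j)) {g : ℝ × ℝ → ℝ} (hg : Nice g)
    (j : ℕ) : Nice fun z => F.wt j z * g z := by
  have : (fun z => F.wt j z * g z) = fun z => ∑ i, (F.E i j).indicator (1 : ℝ × ℝ → ℝ) z * g z := by
    funext z
    unfold Tr.wt
    rw [Finset.sum_mul]
  rw [this]
  exact Nice.sum _ fun i _ => nice_ind (hm i j) hg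

theorem nice_sum (κ : Ker M) {u : ℝ × ℝ → ℝ} (hu : Field u) (F : Tr)
    (hm : ∀ i j, MeasurableSet (F.E i j)) {g : ℝ × ℝ → ℝ} (hg : Nice g) (n : ℕ) :
    Nice (F.sum κ u g n) :=
  Nice.sum _ fun i _ => κ.FS_nice hu hg (hm i) n

/-- The weights of a family which splits. -/
theorem split_sum (κ : Ker M) {u : ℝ × ℝ → ℝ} (hu : Field u) {F A B : Tr}
    (hF : ∀ i j, MeasurableSet (F.E i j)) (hA : ∀ i j, MeasurableSet (A.E i j))
    (hB : ∀ i j, MeasurableSet (B.E i j)) {g : ℝ × ℝ → ℝ} (hg : Nice g) (n : ℕ)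
    (h : ∀ j z, F.wt j z = A.wt j z + B.wt j z) (ζ : ℝ × ℝ) :
    F.sum κ u g n ζ = A.sum κ u g n ζ + B.sum κ u g n ζ := by
  rw [sum_eq κ hu F hF hg, sum_eq κ hu A hA hg, sum_eq κ hu B hB hg,
    ← FSw_add κ hu (nice_wt hA hg) (nice_wt hB hg)]
  congr 1
  funext j z
  exact h j z

/-- A weight which is the sum of the weights of families and of a rest. -/
theorem part_sum (κ : Ker M) {u : ℝ × ℝ → ℝ} (hu : Field u) {K : ℕ} {F : Fin K → Tr}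
    {R : ℕ → Set (ℝ × ℝ)} {w : ℕ → ℝ × ℝ → ℝ} (hF : ∀ k i j, MeasurableSet ((F k).E i j))
    (hR : ∀ j, MeasurableSet (R j)) {g : ℝ × ℝ → ℝ} (hg : Nice g) (n : ℕ)
    (h : ∀ j z, w j z = (∑ k, (F k).wt j z) + (R j).indicator (1 : ℝ × ℝ → ℝ) z) (ζ : ℝ × ℝ) :
    FSw κ u w g n ζ = ∑ k, (F k).sum κ u g n ζ + κ.FS u g R n ζ := by
  have h1 : w = fun j z => (∑ k, (F k).wt j z) + (R j).indicator (1 : ℝ × ℝ → ℝ) z :=
    funext fun j => funext fun z => h j z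
  have hN : ∀ j, Nice fun z => (∑ k, (F k).wt j z) * g z := fun j => by
    have : (fun z => (∑ k, (F k).wt j z) * g z) = fun z => ∑ k, (F k).wt j z * g z := by
      funext z
      rw [Finset.sum_mul]
    rw [this]
    exact Nice.sum _ fun k _ => nice_wt (hF k) hg j
  rw [h1, FSw_add κ hu hN (fun j => nice_ind (hR j) hg), FS_eq κ u R g n ζ,
    FSw_sum κ hu Finset.univ fun k j => nice_wt (hF k) hg j]
  congr 1
  exact Finset.sum_congr rfl fun k _ => (sum_eq κ hu (F k) (hF k) hg n ζ).symm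

/-- Pairing with a sum of families and a rest. -/
theorem abs_part_le (κ : Ker M) {u : ℝ × ℝ → ℝ} (hu : Field u) {K : ℕ} {F : Fin K → Tr}
    {R : ℕ → Set (ℝ × ℝ)} {Φ : ℝ × ℝ → ℝ} (hF : ∀ k i j, MeasurableSet ((F k).E i j))
    (hR : ∀ j, MeasurableSet (R j)) {f g : ℝ × ℝ → ℝ} (hf : Nice f) (hg : Nice g) (n : ℕ)
    (h : ∀ ζ, Φ ζ = ∑ k, (F k).sum κ u g n ζ + κ.FS u g R n ζ) {a r : ℝ}
    (ha : ∀ k, |∫ ζ, f ζ * (F k).sum κ u g n ζ| ≤ a) (hr : |∫ ζ, f ζ * κ.FS u g R n ζ| ≤ r) :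
    |∫ ζ, f ζ * Φ ζ| ≤ K * a + r := by
  have h1 : ∫ ζ, f ζ * Φ ζ = ∑ k, (∫ ζ, f ζ * (F k).sum κ u g n ζ) +
      ∫ ζ, f ζ * κ.FS u g R n ζ := by
    simp_rw [h, mul_add, Finset.mul_sum]
    rw [integral_add (integrable_finsetSum _ fun k _ =>
      (hf.mul (nice_sum κ hu (F k) (hF k) hg n)).integrable)
      (hf.mul (κ.FS_nice hu hg hR n)).integrable,
      integral_finsetSum _ fun k _ => (hf.mul (nice_sum κ hu (F k) (hF k) hg n)).integrable]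
  rw [h1]
  refine (abs_add_le _ _).trans (add_le_add ?_ hr)
  refine (Finset.abs_sum_le_sum_abs _ _).trans ?_
  refine (Finset.sum_le_sum fun k _ => ha k).trans (le_of_eq ?_)
  simp

/-- `low` and `high` split a family. -/
theorem low_high (F : Tr) (δ : ℝ) (j : ℕ) (z : ℝ × ℝ) :
    F.wt j z = (F.low δ).wt j z + (F.high δ).wt j z := by
  unfold Tr.wt
  show ∑ i, (F.E i j).indicator (1 : ℝ × ℝ → ℝ) z =
    ∑ i : F.ι, ((F.low δ).E i j).indicator (1 : ℝ × ℝ → ℝ) z +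
      ∑ i : F.ι, ((F.high δ).E i j).indicator (1 : ℝ × ℝ → ℝ) z
  rw [← Finset.sum_add_distrib]
  refine Finset.sum_congr rfl fun i _ => ?_
  by_cases hz : z ∈ F.E i j
  · rw [indicator_of_mem hz]
    by_cases hl : volume (F.E i j ∩ F.tile i j z) < ENNReal.ofReal (δ / 2 ^ j)
    · have h1 : z ∈ (F.low δ).E i j := ⟨hz, hl⟩
      have h2 : z ∉ (F.high δ).E i j := fun h => absurd hl (not_lt.2 h.2)
      rw [indicator_of_mem h1, indicator_of_notMem h2]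
      simp
    · have h1 : z ∉ (F.low δ).E i j := fun h => hl h.2
      have h2 : z ∈ (F.high δ).E i j := ⟨hz, not_lt.1 hl⟩
      rw [indicator_of_notMem h1, indicator_of_mem h2]
      simp
  · have h1 : z ∉ (F.low δ).E i j := fun h => hz h.1
    have h2 : z ∉ (F.high δ).E i j := fun h => hz h.1
    rw [indicator_of_notMem hz, indicator_of_notMem h1, indicator_of_notMem h2]
    simp

theorem Tr.SepP.mono {F : Tr} {Q D D' : ℝ} (h : F.SepP Q D) (hD : D' ≤ D) : F.SepP Q D' :=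
  fun i i' j j' hi hj z hz z' hz' hx ho => h i i' j j' hi hj z hz z' hz' hx (ho.trans hD)

/-- Cauchy–Schwarz with `|f| ≤ 1`. -/
theorem pair_le {f Φ : ℝ × ℝ → ℝ} (hf : Nice f) (hΦ : Nice Φ) (hf1 : ∀ z, |f z| ≤ 1) {X : ℝ}
    (hX : ∫ ζ, Φ ζ ^ 2 ≤ X) : |∫ ζ, f ζ * Φ ζ| ≤ √((volume {z | f z ≠ 0}).toReal) * √X := by
  refine (H694.cs_nice hf hΦ).trans ?_
  gcongr
  exact H694.int_sq_le_supp hf hf1

end Vale.Agent.P112.R2
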