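import Vale.Agent.P112.G.CompA

/-!
# P112, chapter (G): composition, the literal Prop for the bad part of one weakly separated family
-/

open MeasureTheory Set Filter Topology
open scoped ENNReal

set_option linter.dupNamespace false

namespace Vale.Agent.P112.R2

open T F30

variable {M : ℕ}

/-- [GAIN] for the exponents `b`, `c2`. -/
def GainAt (κ : Ker M) (b c2 : ℕ) : Prop := ∀ c3 B : ℕ,
  ∃ (N : ℕ) (C : ℝ), 1 ≤ C ∧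
  ∀ (u : ℝ × ℝ → ℝ), Field u → ∀ (n ν : ℕ) (f g : ℝ × ℝ → ℝ), Nice f → Nice g →
    (∀ z, |f z| ≤ 1) → (∀ z, |g z| ≤ 1) →
    (∀ z, f z ≠ 0 → 1 / 2 ≤ |f z|) → (∀ z, g z ≠ 0 → 1 / 2 ≤ |g z|) →
    (∀ z, g z ≠ 0 → z.1 ∈ Ico (0 : ℝ) 1) →
    0 < volume {z | f z ≠ 0} → 0 < volume {z | g z ≠ 0} →
    ∀ L : ℝ, L = Real.log ((volume {z | g z ≠ 0}).toReal / (volume {z | f z ≠ 0}).toReal) →
    C ≤ L → (ν : ℝ) ≤ b * Real.log L →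
    (∀ x y y', |u (x, y) - u (x, y')| ≤ Real.exp (-L ^ N) * |y - y'|) →
    ∀ (F : Tr) (A w : ℝ), 1 ≤ A → A ≤ L ^ b → Real.exp (L ^ c2) ≤ w → w ≤ Real.exp (L ^ c3) →
      F.Ok u (Pd u {z | g z ≠ 0} 4 n ν) A w →
      F.SepP (Real.exp (L ^ c2)) (4 * w) →
      |∫ ζ, f ζ * F.sum κ u g n ζ| * L ^ B ≤
        C * √((volume {z | f z ≠ 0}).toReal) * √((volume {z | g z ≠ 0}).toReal)

theorem stGain_iff (κ : Ker M) : StGain κ ↔ ∀ b : ℕ, ∃ c2 : ℕ, 1 ≤ c2 ∧ GainAt κ b c2 := Iff.rfl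

/-- The bad part of one weakly separated family (`Q = exp (L ^ c2)`, `H = exp (L ^ (c2 + 1))`). -/
def StBad (κ : Ker M) : Prop := ∃ C0 : ℕ, 1 ≤ C0 ∧ ∀ b c2 B : ℕ, 1 ≤ b → 1 ≤ c2 →
  GainAt κ b c2 → ∃ (N : ℕ) (C : ℝ), 1 ≤ C ∧
  ∀ (u : ℝ × ℝ → ℝ), Field u → ∀ (n ν : ℕ) (f g : ℝ × ℝ → ℝ), Nice f → Nice g →
    (∀ z, |f z| ≤ 1) → (∀ z, |g z| ≤ 1) →
    (∀ z, f z ≠ 0 → 1 / 2 ≤ |f z|) → (∀ z, g z ≠ 0 → 1 / 2 ≤ |g z|) →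
    (∀ z, g z ≠ 0 → z.1 ∈ Ico (0 : ℝ) 1) →
    0 < volume {z | f z ≠ 0} → 0 < volume {z | g z ≠ 0} →
    ∀ L : ℝ, L = Real.log ((volume {z | g z ≠ 0}).toReal / (volume {z | f z ≠ 0}).toReal) →
    C ≤ L → (ν : ℝ) ≤ b * Real.log L →
    (∀ x y y', |u (x, y) - u (x, y')| ≤ Real.exp (-L ^ N) * |y - y'|) →
    ∀ (F : Tr) (G : Cells F) (A : ℝ), C0 * 2 ^ ν ≤ A → A ≤ L ^ b →
      F.Ok u (Pd u {z | g z ≠ 0} 4 n ν) A (Real.exp (L ^ (c2 + 1)) / 2) → G.Marg →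
      G.Sep0 u A (32 * Real.exp (L ^ (c2 + 1))) →
      |∫ ζ, f ζ * (G.bad (Real.exp (L ^ c2)) (Real.exp (L ^ (c2 + 1)))).sum κ u g n ζ| * L ^ B ≤
        C * √((volume {z | f z ≠ 0}).toReal) * √((volume {z | g z ≠ 0}).toReal)

end Vale.Agent.P112.R2
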