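import Vale.Agent.P112.G.Comp
import Vale.Agent.P112.H526.R0Q

/-!
# P112, chapter (G): what is needed
-/

open MeasureTheory Set Filter Topology
open scoped ENNReal

set_option linter.dupNamespace false

namespace Vale.Agent.P112.R2

open T F30

variable {M : ℕ}

/-- **Chapter (G)** from [FF0], [GAIN] and the bad part of one weakly separated family. -/
theorem stGs_of (hM : 8 ≤ M) {κ : Ker M} (hFF : StFF0) (hGain : StGain κ) (hBad : StBad κ) :
    H889.StGs κ :=
  comp hFF hGain hBad (H526.R0.stR0P hM κ)

end Vale.Agent.P112.R2
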