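import Vale.Agent.P112.G.All
import Vale.Agent.P112.H526.GainFin
import Vale.Agent.P112.H597.Sq
import Vale.Agent.P112.H22.GCands

/-!
# P112, chapter (G): the conjecture from the analytic side of [GAIN]
-/

open MeasureTheory Set Filter Topology
open scoped ENNReal

set_option linter.dupNamespace false

namespace Vale.Agent.P112.R2

open T F30

variable {M : ℕ}

/-- [GAIN] from its analytic side. -/
theorem stGain_of_ana (hM : 1 ≤ M) (κ : Ker M) (h : H646.Gain.StAna) : StGain κ :=
  H526.GAsm.stGain_of_rest hM κ H597.Gn.stSq H22.GArcs.stArcs h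

/-- **The conjecture** from the analytic side of [GAIN]. -/
theorem stein_of_ana (h : H646.Gain.StAna) :
    ∃ C : ℝ, 0 < C ∧ ∀ v : Plane → Plane, (∀ x, ‖v x‖ = 1) → LipschitzWith 1 v →
      ∀ a : ℝ, 0 < a → a ≤ 1 → StrongType v a C ∧ WeakType v a C :=
  stein_of_gain (M := 8) le_rfl fun κ => stGain_of_ana (by norm_num) κ h

end Vale.Agent.P112.R2
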