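import Vale.Agent.P112.G.R2
import Vale.Agent.P112.H694.Tail
import Vale.Agent.P112.T.Cor

/-!
# P112, chapter (G): [MASS], by (T3) with at most `m` scales per point
-/

open MeasureTheory Set
open scoped ENNReal

set_option linter.dupNamespace false

namespace Vale.Agent.P112.R2

open T F30

variable {M : ℕ}

theorem setIntegral_abs_le_vol {g : ℝ × ℝ → ℝ} (hg : Nice g) (h1 : ∀ z, |g z| ≤ 1)
    {A : Set (ℝ × ℝ)} (hfin : volume A ≠ ∞) :
    ∫ z in A, |g z| ≤ (volume A).toReal := by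
  calc ∫ z in A, |g z| ≤ ∫ _z in A, (1 : ℝ) := by
        refine setIntegral_mono hg.abs.integrable.integrableOn (integrableOn_const hfin) ?_
        intro z
        exact h1 z
    _ = (volume A).toReal := by simp [Measure.real]

theorem stMass (hM : 8 ≤ M) (κ : Ker M) : StMass κ := by
  obtain ⟨C1, hC1, hFD⟩ := H540.stFD1 4
  obtain ⟨C0, hκ⟩ := TreeT2.exists_Bd κ
  obtain ⟨C, hC, h3⟩ := tN3m M (4 + 2) C0 (by omega)
  refine ⟨C * 4 * C1, by positivity, ?_⟩
  intro u hu n ν g hg hg1 R hR hsub W hW hwin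
  obtain ⟨-, -, -, hD, -⟩ := hFD u hu {z | g z ≠ 0} (H694.support_meas hg) (H694.support_bdd hg)
    n ν
  have hδ : 0 < C1 * (1 / 2 : ℝ) ^ ν := by positivity
  set m := ⌊W⌋₊ + 1 with hm
  have hW0 : 0 ≤ W := by linarith
  have hcnt : ∀ j < n, ∀ z ∈ R j, cnt R j z < m := by
    intro j _ z hz
    classical
    unfold cnt
    have hsub2 : (Finset.range j).filter (fun i => z ∈ R i) ⊆ Finset.Ico (j - ⌊W⌋₊) j := by
      intro i hi
      rw [Finset.mem_filter, Finset.mem_range] at hi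
      rw [Finset.mem_Ico]
      refine ⟨?_, hi.1⟩
      have h1 : (j : ℝ) ≤ i + W := hwin z i j hi.2 hz
      have h2 : ((j - i : ℕ) : ℝ) ≤ W := by
        rw [Nat.cast_sub hi.1.le]
        linarith
      have h4 : j - i ≤ ⌊W⌋₊ := Nat.le_floor h2
      omega
    have := Finset.card_le_card hsub2
    rw [Nat.card_Ico] at this
    omega

  have hUsub : Un R n ⊆ {z | g z ≠ 0} := by
    rintro z ⟨j, _, hz⟩
    exact (hsub j hz).1
  have hUfin : volume (Un R n) ≠ ∞ :=
    ne_top_of_le_ne_top (H694.support_ne_top hg) (measure_mono hUsub)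
  have hmW : (m : ℝ) ≤ 2 * W := by
    rw [hm]
    push_cast
    have := Nat.floor_le hW0
    linarith
  have hV : 0 ≤ (volume (Un R n)).toReal := ENNReal.toReal_nonneg
  calc ∫ ζ, (κ.FS u g R n ζ) ^ 2
      ≤ C * m ^ 2 * (C1 * (1 / 2) ^ ν) * ∫ z in Un R n, |g z| :=
        h3 1 κ hκ 0 u hu n m R hR hcnt _ hδ (hD.mono hsub) g hg hg1
    _ ≤ C * (2 * W) ^ 2 * (C1 * 1) * (volume (Un R n)).toReal := by
        gcongr
        · exact pow_le_one₀ (by norm_num) (by norm_num)
        · exact setIntegral_abs_le_vol hg hg1 hUfin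
    _ = C * 4 * C1 * W ^ 2 * (volume (Un R n)).toReal := by ring

end Vale.Agent.P112.R2
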