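import Vale.Agent.P112.G.Last
import Vale.Agent.P112.H646.StAna

/-!
# P112: the conjecture
-/

open MeasureTheory Set Filter Topology
open scoped ENNReal

set_option linter.dupNamespace false

namespace Vale.Agent.P112.R2

open T F30

/-- **The conjecture**: uniform strong and weak type (2,2) at every scale `0 < a ≤ 1`. -/
theorem stein :
    ∃ C : ℝ, 0 < C ∧ ∀ v : Plane → Plane, (∀ x, ‖v x‖ = 1) → LipschitzWith 1 v →
      ∀ a : ℝ, 0 < a → a ≤ 1 → StrongType v a C ∧ WeakType v a C :=
  stein_of_ana H646.Gain.stAna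

end Vale.Agent.P112.R2
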