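import Mathlib

set_option linter.unusedSectionVars false

/-!
# Improved Young inequality for approximate resonances (P112, block G)

`s : ι → ℝ` are `> 3ρ` separated reals.  For `a ≥ 0`
`∑_{|s i + s j - s k - s l| ≤ ρ} a i a j a k a l ≤ (∑ a i ^ p) ^ (4/p)`, `4/p = 3 - θ`,
whenever `θ log (card ι) ≤ 2^{-18}`.
-/

open Finset

namespace Vale.Agent.P112.G

variable {ι : Type*} [Fintype ι]

/-- indicator of the resonance relation -/
noncomputable def res (s : ι → ℝ) (ρ : ℝ) (i j k l : ι) : ℝ :=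
  if |s i + s j - s k - s l| ≤ ρ then 1 else 0

/-- the four-linear resonance form -/
noncomputable def form (s : ι → ℝ) (ρ : ℝ) (x y z w : ι → ℝ) : ℝ :=
  ∑ i, ∑ j, ∑ k, ∑ l, res s ρ i j k l * (x i * y j * z k * w l)

/-- the resonance energy of `a` -/
noncomputable def energy (s : ι → ℝ) (ρ : ℝ) (a : ι → ℝ) : ℝ := form s ρ a a a a

lemma res_nonneg (s : ι → ℝ) (ρ : ℝ) (i j k l : ι) : 0 ≤ res s ρ i j k l := by
  unfold res; split_ifs <;> norm_num

lemma res_le_one (s : ι → ℝ) (ρ : ℝ) (i j k l : ι) : res s ρ i j k l ≤ 1 := by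
  unfold res; split_ifs <;> norm_num

/-- separation -/
def Sep (s : ι → ℝ) (ρ : ℝ) : Prop := ∀ i j, i ≠ j → 3 * ρ < |s i - s j|

lemma Sep.eq {s : ι → ℝ} {ρ : ℝ} (h : Sep s ρ) {i j : ι} (hij : |s i - s j| ≤ 3 * ρ) : i = j := by
  by_contra hne
  exact absurd hij (not_le.mpr (h i j hne))

/-- three indices determine the fourth -/
lemma sum_res_last {s : ι → ℝ} {ρ : ℝ} (h : Sep s ρ) (hρ : 0 ≤ ρ) (i j k : ι) :
    ∑ l, res s ρ i j k l ≤ 1 := by
  classical
  by_cases hex : ∃ l, |s i + s j - s k - s l| ≤ ρ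
  · obtain ⟨l0, hl0⟩ := hex
    rw [Finset.sum_eq_single l0]
    · exact res_le_one _ _ _ _ _ _
    · intro l _ hl
      unfold res
      rw [if_neg]
      intro hl'
      apply hl
      apply h.eq
      rw [abs_le] at *
      constructor <;> linarith [hl0.1, hl0.2, hl'.1, hl'.2]
    · intro hh; exact absurd (Finset.mem_univ _) hh
  · push Not at hex
    have : ∑ l, res s ρ i j k l = 0 := by
      apply Finset.sum_eq_zero
      intro l _
      unfold res
      rw [if_neg (not_le.mpr (hex l))]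
    rw [this]; norm_num

lemma res_swap34 (s : ι → ℝ) (ρ : ℝ) (i j k l : ι) : res s ρ i j k l = res s ρ i j l k := by
  unfold res
  rw [show s i + s j - s k - s l = s i + s j - s l - s k by ring]

lemma res_swap12 (s : ι → ℝ) (ρ : ℝ) (i j k l : ι) : res s ρ i j k l = res s ρ j i k l := by
  unfold res
  rw [show s i + s j - s k - s l = s j + s i - s k - s l by ring]

lemma res_swap (s : ι → ℝ) (ρ : ℝ) (i j k l : ι) : res s ρ i j k l = res s ρ k l i j := by
  unfold res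
  rw [show s i + s j - s k - s l = -(s k + s l - s i - s j) by ring, abs_neg]

lemma sum_res_third {s : ι → ℝ} {ρ : ℝ} (h : Sep s ρ) (hρ : 0 ≤ ρ) (i j l : ι) :
    ∑ k, res s ρ i j k l ≤ 1 := by
  have := sum_res_last h hρ i j l
  simpa only [res_swap34 s ρ i j l] using this

/-- matching bound, weighted -/
lemma pair_bound {s : ι → ℝ} {ρ : ℝ} (h : Sep s ρ) (hρ : 0 ≤ ρ) (i j : ι) (f g : ι → ℝ)
    (lam : ℝ) (hlam : 0 < lam) :
    ∑ k, ∑ l, res s ρ i j k l * (f k * g l) ≤ (lam * ∑ k, f k ^ 2 + lam⁻¹ * ∑ l, g l ^ 2) / 2 := by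
  have h1 : ∀ k l, res s ρ i j k l * (f k * g l) ≤
      res s ρ i j k l * (lam / 2 * f k ^ 2) + res s ρ i j k l * (lam⁻¹ / 2 * g l ^ 2) := by
    intro k l
    rw [← mul_add]
    apply mul_le_mul_of_nonneg_left _ (res_nonneg _ _ _ _ _ _)
    have hl : lam * lam⁻¹ = 1 := mul_inv_cancel₀ hlam.ne'
    have hi : 0 < lam⁻¹ := inv_pos.mpr hlam
    have h0 : 0 ≤ lam⁻¹ * (lam * f k - g l) ^ 2 := by positivity
    have : lam⁻¹ * (lam * f k - g l) ^ 2 = lam * f k ^ 2 - 2 * (f k * g l) + lam⁻¹ * g l ^ 2 := by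
      field_simp
      ring
    rw [this] at h0
    linarith
  calc ∑ k, ∑ l, res s ρ i j k l * (f k * g l)
      ≤ ∑ k, ∑ l, (res s ρ i j k l * (lam / 2 * f k ^ 2)
          + res s ρ i j k l * (lam⁻¹ / 2 * g l ^ 2)) :=
        Finset.sum_le_sum fun k _ => Finset.sum_le_sum fun l _ => h1 k l
    _ = ∑ k, (∑ l, res s ρ i j k l) * (lam / 2 * f k ^ 2)
          + ∑ l, (∑ k, res s ρ i j k l) * (lam⁻¹ / 2 * g l ^ 2) := by
        simp only [Finset.sum_add_distrib, ← Finset.sum_mul]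
        congr 1
        rw [Finset.sum_comm]
        simp only [← Finset.sum_mul]
    _ ≤ ∑ k, 1 * (lam / 2 * f k ^ 2) + ∑ l, 1 * (lam⁻¹ / 2 * g l ^ 2) := by
        apply add_le_add
        · apply Finset.sum_le_sum; intro k _
          apply mul_le_mul_of_nonneg_right (sum_res_last h hρ i j k) (by positivity)
        · apply Finset.sum_le_sum; intro k _
          apply mul_le_mul_of_nonneg_right (sum_res_third h hρ i j k) (by positivity)
    _ = (lam * ∑ k, f k ^ 2 + lam⁻¹ * ∑ l, g l ^ 2) / 2 := by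
        simp only [one_mul, ← Finset.mul_sum]
        ring

/-- `κ(i,j)` -/
noncomputable def kap (s : ι → ℝ) (ρ : ℝ) (x : ι → ℝ) (i j : ι) : ℝ :=
  ∑ k, ∑ l, res s ρ i j k l * (x k ^ 2 * x l ^ 2)

lemma kap_le {s : ι → ℝ} {ρ : ℝ} (h : Sep s ρ) (hρ : 0 ≤ ρ) (x : ι → ℝ) (i j : ι) :
    kap s ρ x i j ≤ ∑ k, x k ^ 4 := by
  have := pair_bound h hρ i j (fun k => x k ^ 2) (fun k => x k ^ 2) 1 one_pos
  unfold kap
  have e : ∀ k, (x k ^ 2) ^ 2 = x k ^ 4 := fun k => by ring
  simp only [e] at this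
  refine this.trans (le_of_eq ?_)
  simp

/-- first step: `Q ≤ ∑ μ μ κ` -/
lemma energy_le_kap (s : ι → ℝ) (ρ : ℝ) (x : ι → ℝ) :
    energy s ρ (fun i => x i ^ 3) ≤ ∑ i, ∑ j, x i ^ 4 * x j ^ 4 * kap s ρ x i j := by
  have h1 : ∀ i j k l, res s ρ i j k l * (x i ^ 3 * x j ^ 3 * x k ^ 3 * x l ^ 3) ≤
      res s ρ i j k l * (x i ^ 4 * x j ^ 4 * (x k ^ 2 * x l ^ 2)) / 2 +
      res s ρ k l i j * (x k ^ 4 * x l ^ 4 * (x i ^ 2 * x j ^ 2)) / 2 := by
    intro i j k l
    rw [← res_swap s ρ i j k l]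
    have h0 : x i ^ 3 * x j ^ 3 * x k ^ 3 * x l ^ 3 ≤
        (x i ^ 4 * x j ^ 4 * (x k ^ 2 * x l ^ 2)) / 2 +
        (x k ^ 4 * x l ^ 4 * (x i ^ 2 * x j ^ 2)) / 2 := by
      nlinarith [sq_nonneg (x i ^ 2 * x j ^ 2 * (x k * x l) - (x i * x j) * (x k ^ 2 * x l ^ 2))]
    have := mul_le_mul_of_nonneg_left h0 (res_nonneg s ρ i j k l)
    linarith
  unfold energy form
  calc _ ≤ ∑ i, ∑ j, ∑ k, ∑ l, (res s ρ i j k l * (x i ^ 4 * x j ^ 4 * (x k ^ 2 * x l ^ 2)) / 2 +
      res s ρ k l i j * (x k ^ 4 * x l ^ 4 * (x i ^ 2 * x j ^ 2)) / 2) := by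
        refine Finset.sum_le_sum fun i _ => Finset.sum_le_sum fun j _ =>
          Finset.sum_le_sum fun k _ => Finset.sum_le_sum fun l _ => h1 i j k l
    _ = (∑ i, ∑ j, ∑ k, ∑ l, res s ρ i j k l * (x i ^ 4 * x j ^ 4 * (x k ^ 2 * x l ^ 2))) / 2 +
        (∑ i, ∑ j, ∑ k, ∑ l, res s ρ k l i j * (x k ^ 4 * x l ^ 4 * (x i ^ 2 * x j ^ 2))) / 2 := by
        simp only [Finset.sum_add_distrib, ← Finset.sum_div]
    _ = ∑ i, ∑ j, ∑ k, ∑ l, res s ρ i j k l * (x i ^ 4 * x j ^ 4 * (x k ^ 2 * x l ^ 2)) := by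
        have : (∑ i, ∑ j, ∑ k, ∑ l, res s ρ k l i j * (x k ^ 4 * x l ^ 4 * (x i ^ 2 * x j ^ 2)))
            = ∑ i, ∑ j, ∑ k, ∑ l, res s ρ i j k l * (x i ^ 4 * x j ^ 4 * (x k ^ 2 * x l ^ 2)) := by
          have e1 : ∀ F : ι → ι → ι → ι → ℝ, (∑ i, ∑ j, ∑ k, ∑ l, F k l i j) =
              ∑ i, ∑ j, ∑ k, ∑ l, F i j k l := by
            intro F
            calc (∑ i, ∑ j, ∑ k, ∑ l, F k l i j) = ∑ i, ∑ k, ∑ j, ∑ l, F k l i j := by
                  refine Finset.sum_congr rfl fun i _ => Finset.sum_comm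
              _ = ∑ k, ∑ i, ∑ j, ∑ l, F k l i j := Finset.sum_comm
              _ = ∑ k, ∑ i, ∑ l, ∑ j, F k l i j := by
                  refine Finset.sum_congr rfl fun k _ => Finset.sum_congr rfl fun i _ =>
                    Finset.sum_comm
              _ = ∑ k, ∑ l, ∑ i, ∑ j, F k l i j := by
                  refine Finset.sum_congr rfl fun k _ => Finset.sum_comm
          exact e1 (fun i j k l => res s ρ i j k l * (x i ^ 4 * x j ^ 4 * (x k ^ 2 * x l ^ 2)))
        rw [this]; ring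
    _ = _ := by
        refine Finset.sum_congr rfl fun i _ => Finset.sum_congr rfl fun j _ => ?_
        unfold kap
        rw [Finset.mul_sum]
        refine Finset.sum_congr rfl fun k _ => ?_
        rw [Finset.mul_sum]
        refine Finset.sum_congr rfl fun l _ => ?_
        ring

/-- bound of `κ` above an upper quantile with a light atom -/
lemma kap_upper {s : ι → ℝ} {ρ : ℝ} (h : Sep s ρ) (hρ : 0 ≤ ρ) {x : ι → ℝ}
    (hsum : ∑ k, x k ^ 4 = 1) {m : ι}
    (hup : ∑ k, (if s m < s k then x k ^ 4 else 0) ≤ 1 / 256) (hm : x m ^ 4 ≤ 1 / 2)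
    {i j : ι} (hi : s m ≤ s i) (hj : s m ≤ s j) : kap s ρ x i j ≤ 5 / 8 := by
  classical
  set H : ι → ℝ := fun k => if s m < s k then 1 else 0 with hH
  have hHn : ∀ k, 0 ≤ H k := fun k => by simp only [hH]; split_ifs <;> norm_num
  have h1 : ∀ k l, res s ρ i j k l * (x k ^ 2 * x l ^ 2) ≤
      res s ρ i j k l * ((if k = m then if l = m then x m ^ 4 else 0 else 0)) +
      res s ρ i j k l * ((H k * x k ^ 2) * x l ^ 2) +
      res s ρ i j k l * (x k ^ 2 * (H l * x l ^ 2)) := by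
    intro k l
    rw [← mul_add, ← mul_add]
    by_cases hr : |s i + s j - s k - s l| ≤ ρ
    · apply mul_le_mul_of_nonneg_left _ (res_nonneg _ _ _ _ _ _)
      have hxk : 0 ≤ x k ^ 2 := by positivity
      have hxl : 0 ≤ x l ^ 2 := by positivity
      by_cases hk : s m < s k
      · have e : H k = 1 := by simp only [hH]; rw [if_pos hk]
        rw [e]
        have : 0 ≤ x k ^ 2 * (H l * x l ^ 2) := mul_nonneg hxk (mul_nonneg (hHn l) hxl)
        have h3 : 0 ≤ (if k = m then if l = m then x m ^ 4 else 0 else 0) := by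
          split_ifs <;> positivity
        nlinarith
      · by_cases hl : s m < s l
        · have e : H l = 1 := by simp only [hH]; rw [if_pos hl]
          rw [e]
          have : 0 ≤ (H k * x k ^ 2) * (x l ^ 2) := mul_nonneg (mul_nonneg (hHn k) hxk) hxl
          have h3 : 0 ≤ (if k = m then if l = m then x m ^ 4 else 0 else 0) := by
            split_ifs <;> positivity
          nlinarith
        · push Not at hk hl
          rw [abs_le] at hr
          have hkm : k = m := by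
            by_contra hne
            have := h k m hne
            rw [abs_of_nonpos (by linarith)] at this
            linarith [hr.2]
          have hlm : l = m := by
            by_contra hne
            have := h l m hne
            rw [abs_of_nonpos (by linarith)] at this
            linarith [hr.2]
          have h5 : 0 ≤ (H k * x k ^ 2) * (x l ^ 2) := mul_nonneg (mul_nonneg (hHn k) hxk) hxl
          have h6 : 0 ≤ x k ^ 2 * (H l * x l ^ 2) := mul_nonneg hxk (mul_nonneg (hHn l) hxl)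
          rw [if_pos hkm, if_pos hlm]
          have e2 : x k ^ 2 * x l ^ 2 = x m ^ 4 := by rw [hkm, hlm]; ring
          linarith
    · unfold res
      rw [if_neg hr]
      simp
  have hA : ∑ k, ∑ l, res s ρ i j k l * ((if k = m then if l = m then x m ^ 4 else 0 else 0))
      ≤ x m ^ 4 := by
    rw [Finset.sum_eq_single m]
    · rw [Finset.sum_eq_single m]
      · simp only [if_true]
        have := res_le_one s ρ i j m m
        nlinarith [show 0 ≤ x m ^ 4 by positivity]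
      · intro l _ hl; simp [hl]
      · intro hh; exact absurd (Finset.mem_univ _) hh
    · intro k _ hk; simp [hk]
    · intro hh; exact absurd (Finset.mem_univ _) hh
  have e4 : ∀ k, (x k ^ 2) ^ 2 = x k ^ 4 := fun k => by ring
  have eH : ∀ k, (H k * x k ^ 2) ^ 2 = if s m < s k then x k ^ 4 else 0 := by
    intro k; simp only [hH]; split_ifs <;> ring
  have hB := pair_bound h hρ i j (fun k => H k * x k ^ 2) (fun k => x k ^ 2) 16 (by norm_num)
  have hC := pair_bound h hρ i j (fun k => x k ^ 2) (fun k => H k * x k ^ 2) (16⁻¹) (by norm_num)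
  simp only [e4, eH] at hB hC
  rw [hsum] at hB hC
  unfold kap
  calc _ ≤ ∑ k, ∑ l, (res s ρ i j k l * ((if k = m then if l = m then x m ^ 4 else 0 else 0)) +
      res s ρ i j k l * ((H k * x k ^ 2) * x l ^ 2) +
      res s ρ i j k l * (x k ^ 2 * (H l * x l ^ 2))) :=
        Finset.sum_le_sum fun k _ => Finset.sum_le_sum fun l _ => h1 k l
    _ = (∑ k, ∑ l, res s ρ i j k l * ((if k = m then if l = m then x m ^ 4 else 0 else 0))) +
        (∑ k, ∑ l, res s ρ i j k l * ((H k * x k ^ 2) * x l ^ 2)) +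
        ∑ k, ∑ l, res s ρ i j k l * (x k ^ 2 * (H l * x l ^ 2)) := by
        simp only [Finset.sum_add_distrib]
    _ ≤ 5 / 8 := by
        norm_num at hB hC
        linarith

/-- case A -/
lemma energy_caseA {s : ι → ℝ} {ρ : ℝ} (h : Sep s ρ) (hρ : 0 ≤ ρ) {x : ι → ℝ}
    (hsum : ∑ k, x k ^ 4 = 1) {m : ι}
    (hup : ∑ k, (if s m < s k then x k ^ 4 else 0) ≤ 1 / 256)
    (hup' : 1 / 256 ≤ ∑ k, (if s m ≤ s k then x k ^ 4 else 0)) (hm : x m ^ 4 ≤ 1 / 2) :
    energy s ρ (fun i => x i ^ 3) ≤ 1 - 1 / 2 ^ 18 := by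
  classical
  set G : ι → ℝ := fun k => if s m ≤ s k then 1 else 0 with hG
  have hk : ∀ i j, kap s ρ x i j ≤ 1 - 3 / 8 * (G i * G j) := by
    intro i j
    by_cases hi : s m ≤ s i
    · by_cases hj : s m ≤ s j
      · have e : G i = 1 := by simp only [hG]; rw [if_pos hi]
        have e' : G j = 1 := by simp only [hG]; rw [if_pos hj]
        rw [e, e']
        have := kap_upper h hρ hsum hup hm hi hj
        linarith
      · have e' : G j = 0 := by simp only [hG]; rw [if_neg hj]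
        rw [e']
        have := kap_le h hρ x i j
        linarith
    · have e' : G i = 0 := by simp only [hG]; rw [if_neg hi]
      rw [e']
      have := kap_le h hρ x i j
      linarith
  have eG : ∀ k, G k * x k ^ 4 = if s m ≤ s k then x k ^ 4 else 0 := by
    intro k; simp only [hG]; split_ifs <;> ring
  calc energy s ρ (fun i => x i ^ 3) ≤ ∑ i, ∑ j, x i ^ 4 * x j ^ 4 * kap s ρ x i j :=
        energy_le_kap s ρ x
    _ ≤ ∑ i, ∑ j, x i ^ 4 * x j ^ 4 * (1 - 3 / 8 * (G i * G j)) := by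
        refine Finset.sum_le_sum fun i _ => Finset.sum_le_sum fun j _ => ?_
        exact mul_le_mul_of_nonneg_left (hk i j) (by positivity)
    _ = (∑ i, x i ^ 4) * (∑ j, x j ^ 4) - 3 / 8 * ((∑ i, G i * x i ^ 4) * (∑ j, G j * x j ^ 4)) := by
        rw [Finset.sum_mul_sum, Finset.sum_mul_sum, Finset.mul_sum, ← Finset.sum_sub_distrib]
        refine Finset.sum_congr rfl fun i _ => ?_
        rw [Finset.mul_sum, ← Finset.sum_sub_distrib]
        refine Finset.sum_congr rfl fun j _ => ?_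
        ring
    _ ≤ 1 - 1 / 2 ^ 18 := by
        simp only [eG]
        rw [hsum]
        set X := ∑ k, (if s m ≤ s k then x k ^ 4 else 0)
        have : (1 / 256 : ℝ) * (1 / 256) ≤ X * X :=
          mul_le_mul hup' hup' (by norm_num) (le_trans (by norm_num) hup')
        norm_num at this ⊢
        linarith

/-- existence of an upper quantile -/
lemma exists_quantile (s : ι → ℝ) {μ : ι → ℝ} (hμ : ∀ k, 0 ≤ μ k)
    {τ : ℝ} (hτ0 : 0 ≤ τ) (hτ : τ < ∑ k, μ k) :
    ∃ m, ∑ k, (if s m < s k then μ k else 0) ≤ τ ∧ τ < ∑ k, (if s m ≤ s k then μ k else 0) := by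
  classical
  let A : Finset ι := Finset.univ.filter fun m => τ < ∑ k, (if s m ≤ s k then μ k else 0)
  have huniv : (Finset.univ : Finset ι).Nonempty := by
    by_contra hne
    rw [Finset.not_nonempty_iff_eq_empty] at hne
    rw [hne] at hτ
    simp at hτ
    linarith
  have hA : A.Nonempty := by
    obtain ⟨m, _, hm⟩ := Finset.exists_min_image Finset.univ s huniv
    refine ⟨m, Finset.mem_filter.mpr ⟨Finset.mem_univ _, ?_⟩⟩
    have : ∑ k, (if s m ≤ s k then μ k else 0) = ∑ k, μ k := by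
      refine Finset.sum_congr rfl fun k _ => ?_
      rw [if_pos (hm k (Finset.mem_univ _))]
    rw [this]; exact hτ
  obtain ⟨m, hmA, hm⟩ := Finset.exists_max_image A s hA
  refine ⟨m, ?_, (Finset.mem_filter.mp hmA).2⟩
  by_cases hex : ∃ k, s m < s k
  · let B : Finset ι := Finset.univ.filter fun k => s m < s k
    have hB : B.Nonempty := by
      obtain ⟨k, hk⟩ := hex
      exact ⟨k, Finset.mem_filter.mpr ⟨Finset.mem_univ _, hk⟩⟩
    obtain ⟨m', hm'B, hm'⟩ := Finset.exists_min_image B s hB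
    have hlt : s m < s m' := (Finset.mem_filter.mp hm'B).2
    have hnot : m' ∉ A := fun hh => absurd (hm m' hh) (not_le.mpr hlt)
    have h2 : ¬ (τ < ∑ k, (if s m' ≤ s k then μ k else 0)) := fun hh =>
      hnot (Finset.mem_filter.mpr ⟨Finset.mem_univ _, hh⟩)
    push Not at h2
    refine le_trans (Finset.sum_le_sum fun k _ => ?_) h2
    by_cases hk : s m < s k
    · rw [if_pos hk, if_pos (hm' k (Finset.mem_filter.mpr ⟨Finset.mem_univ _, hk⟩))]
    · rw [if_neg hk]; split_ifs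
      · exact hμ k
      · exact le_refl _
  · push Not at hex
    have : ∑ k, (if s m < s k then μ k else 0) = 0 := by
      apply Finset.sum_eq_zero
      intro k _
      rw [if_neg (not_lt.mpr (hex k))]
    rw [this]; exact hτ0

lemma res_neg (s : ι → ℝ) (ρ : ℝ) (i j k l : ι) : res (fun i => - s i) ρ i j k l = res s ρ i j k l := by
  unfold res
  rw [show - s i + - s j - - s k - - s l = -(s i + s j - s k - s l) by ring, abs_neg]

lemma energy_neg (s : ι → ℝ) (ρ : ℝ) (a : ι → ℝ) : energy (fun i => - s i) ρ a = energy s ρ a := by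
  unfold energy form
  simp only [res_neg]

lemma Sep.neg {s : ι → ℝ} {ρ : ℝ} (h : Sep s ρ) : Sep (fun i => - s i) ρ := by
  intro i j hij
  have := h i j hij
  rwa [show - s i - - s j = -(s i - s j) by ring, abs_neg]

/-- dichotomy: strict gain or a dominating atom -/
lemma energy_dichotomy {s : ι → ℝ} {ρ : ℝ} (h : Sep s ρ) (hρ : 0 ≤ ρ) {x : ι → ℝ}
    (hsum : ∑ k, x k ^ 4 = 1) :
    energy s ρ (fun i => x i ^ 3) ≤ 1 - 1 / 2 ^ 18 ∨ ∃ m, 127 / 128 ≤ x m ^ 4 := by
  classical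
  have hμ : ∀ k, 0 ≤ x k ^ 4 := fun k => by positivity
  obtain ⟨m, hm1, hm2⟩ := exists_quantile s hμ (τ := 1 / 256) (by norm_num) (by rw [hsum]; norm_num)
  obtain ⟨n, hn1, hn2⟩ := exists_quantile (fun i => - s i) hμ (τ := 1 / 256) (by norm_num)
    (by rw [hsum]; norm_num)
  by_cases hm : x m ^ 4 ≤ 1 / 2
  · exact Or.inl (energy_caseA h hρ hsum hm1 hm2.le hm)
  by_cases hn : x n ^ 4 ≤ 1 / 2
  · left
    have := energy_caseA h.neg hρ hsum hn1 hn2.le hn
    rwa [energy_neg] at this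
  right
  push Not at hm hn
  have hmn : m = n := by
    by_contra hne
    have : x m ^ 4 + x n ^ 4 ≤ ∑ k, x k ^ 4 := by
      rw [← Finset.sum_pair (f := fun k => x k ^ 4) hne]
      exact Finset.sum_le_sum_of_subset_of_nonneg (Finset.subset_univ _) fun k _ _ => hμ k
    linarith
  subst hmn
  refine ⟨m, ?_⟩
  have hinj : ∀ k, k ≠ m → s k ≠ s m := by
    intro k hk he
    have := h k m hk
    rw [he] at this
    simp at this
    linarith
  have hsplit : ∑ k, x k ^ 4 ≤ (∑ k, (if s m < s k then x k ^ 4 else 0)) +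
      (∑ k, (if - s m < - s k then x k ^ 4 else 0)) + x m ^ 4 := by
    have : x m ^ 4 = ∑ k, if k = m then x k ^ 4 else 0 := by simp
    rw [this, ← Finset.sum_add_distrib, ← Finset.sum_add_distrib]
    refine Finset.sum_le_sum fun k _ => ?_
    by_cases hk : k = m
    · subst hk; simp
    · rcases lt_or_gt_of_ne (hinj k hk) with h1 | h1
      · rw [if_neg (not_lt.mpr h1.le), if_pos (by linarith), if_neg hk]; linarith
      · rw [if_pos h1, if_neg (by intro; linarith), if_neg hk]; linarith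
  rw [hsum] at hsplit
  linarith

/-! ### case B: a dominating atom -/

lemma form_swap12 (s : ι → ℝ) (ρ : ℝ) (x y z w : ι → ℝ) : form s ρ x y z w = form s ρ y x z w := by
  unfold form
  rw [Finset.sum_comm]
  refine Finset.sum_congr rfl fun j _ => Finset.sum_congr rfl fun i _ =>
    Finset.sum_congr rfl fun k _ => Finset.sum_congr rfl fun l _ => ?_
  rw [res_swap12]; ring

lemma form_swap34 (s : ι → ℝ) (ρ : ℝ) (x y z w : ι → ℝ) : form s ρ x y z w = form s ρ x y w z := by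
  unfold form
  refine Finset.sum_congr rfl fun i _ => Finset.sum_congr rfl fun j _ => ?_
  rw [Finset.sum_comm]
  refine Finset.sum_congr rfl fun k _ => Finset.sum_congr rfl fun l _ => ?_
  rw [res_swap34]; ring

lemma form_swap (s : ι → ℝ) (ρ : ℝ) (x y z w : ι → ℝ) : form s ρ x y z w = form s ρ z w x y := by
  unfold form
  have e1 : ∀ F : ι → ι → ι → ι → ℝ, (∑ i, ∑ j, ∑ k, ∑ l, F k l i j) =
      ∑ i, ∑ j, ∑ k, ∑ l, F i j k l := by
    intro F
    calc (∑ i, ∑ j, ∑ k, ∑ l, F k l i j) = ∑ i, ∑ k, ∑ j, ∑ l, F k l i j := by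
          refine Finset.sum_congr rfl fun i _ => Finset.sum_comm
      _ = ∑ k, ∑ i, ∑ j, ∑ l, F k l i j := Finset.sum_comm
      _ = ∑ k, ∑ i, ∑ l, ∑ j, F k l i j := by
          refine Finset.sum_congr rfl fun k _ => Finset.sum_congr rfl fun i _ =>
            Finset.sum_comm
      _ = ∑ k, ∑ l, ∑ i, ∑ j, F k l i j := by
          refine Finset.sum_congr rfl fun k _ => Finset.sum_comm
  rw [← e1 (fun i j k l => res s ρ i j k l * (x i * y j * z k * w l))]
  refine Finset.sum_congr rfl fun i _ => Finset.sum_congr rfl fun j _ =>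
    Finset.sum_congr rfl fun k _ => Finset.sum_congr rfl fun l _ => ?_
  rw [res_swap s ρ i j k l]; ring

lemma form_add1 (s : ι → ℝ) (ρ : ℝ) (x x' y z w : ι → ℝ) :
    form s ρ (x + x') y z w = form s ρ x y z w + form s ρ x' y z w := by
  unfold form
  simp only [← Finset.sum_add_distrib, Pi.add_apply]
  refine Finset.sum_congr rfl fun i _ => Finset.sum_congr rfl fun j _ =>
    Finset.sum_congr rfl fun k _ => Finset.sum_congr rfl fun l _ => ?_
  ring

lemma form_add2 (s : ι → ℝ) (ρ : ℝ) (x y y' z w : ι → ℝ) :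
    form s ρ x (y + y') z w = form s ρ x y z w + form s ρ x y' z w := by
  rw [form_swap12, form_add1, form_swap12 s ρ y, form_swap12 s ρ y']

lemma form_add3 (s : ι → ℝ) (ρ : ℝ) (x y z z' w : ι → ℝ) :
    form s ρ x y (z + z') w = form s ρ x y z w + form s ρ x y z' w := by
  rw [form_swap, form_add1, form_swap s ρ z, form_swap s ρ z']

lemma form_add4 (s : ι → ℝ) (ρ : ℝ) (x y z w w' : ι → ℝ) :
    form s ρ x y z (w + w') = form s ρ x y z w + form s ρ x y z w' := by
  rw [form_swap34, form_add3, form_swap34 s ρ x y w, form_swap34 s ρ x y w']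

lemma energy_add (s : ι → ℝ) (ρ : ℝ) (e b : ι → ℝ) :
    energy s ρ (e + b) = form s ρ e e e e + 4 * form s ρ e e e b + 2 * form s ρ e e b b
      + 4 * form s ρ e b e b + 4 * form s ρ e b b b + form s ρ b b b b := by
  unfold energy
  simp only [form_add1, form_add2, form_add3, form_add4]
  have h1 : form s ρ e e b e = form s ρ e e e b := form_swap34 _ _ _ _ _ _
  have h2 : form s ρ e b e e = form s ρ e e e b := form_swap _ _ _ _ _ _
  have h3 : form s ρ b e e e = form s ρ e e e b := by rw [form_swap12, h2]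
  have h4 : form s ρ b b e e = form s ρ e e b b := form_swap _ _ _ _ _ _
  have h5 : form s ρ e b b e = form s ρ e b e b := form_swap34 _ _ _ _ _ _
  have h6 : form s ρ b e e b = form s ρ e b e b := form_swap12 _ _ _ _ _ _
  have h7 : form s ρ b e b e = form s ρ e b e b := by rw [form_swap12, h5]
  have h8 : form s ρ b e b b = form s ρ e b b b := form_swap12 _ _ _ _ _ _
  have h9 : form s ρ b b e b = form s ρ e b b b := form_swap _ _ _ _ _ _
  have h10 : form s ρ b b b e = form s ρ e b b b := by rw [form_swap34, h9]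
  rw [h1, h2, h3, h4, h5, h6, h7, h8, h9, h10]
  ring

lemma sum_res_second {s : ι → ℝ} {ρ : ℝ} (h : Sep s ρ) (hρ : 0 ≤ ρ) (i k l : ι) :
    ∑ j, res s ρ i j k l ≤ 1 := by
  have := sum_res_last h hρ k l i
  simpa only [← res_swap s ρ i _ k l] using this

section B

variable [DecidableEq ι]

/-- the atom -/
noncomputable def at1 (m : ι) : ι → ℝ := fun i => if i = m then 1 else 0

lemma form_at1 (s : ι → ℝ) (ρ : ℝ) (m : ι) (y z w : ι → ℝ) :
    form s ρ (at1 m) y z w = ∑ j, ∑ k, ∑ l, res s ρ m j k l * (y j * z k * w l) := by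
  unfold form
  rw [Finset.sum_eq_single m]
  · refine Finset.sum_congr rfl fun j _ => Finset.sum_congr rfl fun k _ =>
      Finset.sum_congr rfl fun l _ => ?_
    simp [at1]
  · intro i _ hi
    simp [at1, hi]
  · intro hh; exact absurd (Finset.mem_univ _) hh

lemma form_at2 (s : ι → ℝ) (ρ : ℝ) (m : ι) (z w : ι → ℝ) :
    form s ρ (at1 m) (at1 m) z w = ∑ k, ∑ l, res s ρ m m k l * (z k * w l) := by
  rw [form_at1, Finset.sum_eq_single m]
  · refine Finset.sum_congr rfl fun k _ => Finset.sum_congr rfl fun l _ => ?_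
    simp [at1]
  · intro i _ hi
    simp [at1, hi]
  · intro hh; exact absurd (Finset.mem_univ _) hh

lemma form_at2' (s : ι → ℝ) (ρ : ℝ) (m : ι) (y w : ι → ℝ) :
    form s ρ (at1 m) y (at1 m) w = ∑ j, ∑ l, res s ρ m j m l * (y j * w l) := by
  rw [form_at1]
  refine Finset.sum_congr rfl fun j _ => ?_
  rw [Finset.sum_eq_single m]
  · refine Finset.sum_congr rfl fun l _ => ?_
    simp [at1]
  · intro i _ hi
    simp [at1, hi]
  · intro hh; exact absurd (Finset.mem_univ _) hh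

lemma form_at3 (s : ι → ℝ) (ρ : ℝ) (m : ι) (w : ι → ℝ) :
    form s ρ (at1 m) (at1 m) (at1 m) w = ∑ l, res s ρ m m m l * w l := by
  rw [form_at2, Finset.sum_eq_single m]
  · refine Finset.sum_congr rfl fun l _ => ?_
    simp [at1]
  · intro i _ hi
    simp [at1, hi]
  · intro hh; exact absurd (Finset.mem_univ _) hh

lemma t0_le {s : ι → ℝ} {ρ : ℝ} (m : ι) :
    form s ρ (at1 m) (at1 m) (at1 m) (at1 m) ≤ 1 := by
  rw [form_at3, Finset.sum_eq_single m]
  · simp only [at1, if_true, mul_one]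
    exact res_le_one _ _ _ _ _ _
  · intro i _ hi
    simp [at1, hi]
  · intro hh; exact absurd (Finset.mem_univ _) hh

lemma t1_eq {s : ι → ℝ} {ρ : ℝ} (h : Sep s ρ) (hρ : 0 ≤ ρ) (m : ι) {b : ι → ℝ} (hb : b m = 0) :
    form s ρ (at1 m) (at1 m) (at1 m) b = 0 := by
  rw [form_at3]
  apply Finset.sum_eq_zero
  intro l _
  by_cases hl : l = m
  · rw [hl, hb, mul_zero]
  · have : res s ρ m m m l = 0 := by
      unfold res
      rw [if_neg]
      intro h1
      apply hl
      apply (h.eq _).symm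
      rw [show s m - s l = s m + s m - s m - s l by ring]
      linarith
    rw [this, zero_mul]

lemma t2_le {s : ι → ℝ} {ρ : ℝ} (h : Sep s ρ) (hρ : 0 ≤ ρ) (m : ι) (b : ι → ℝ) :
    form s ρ (at1 m) (at1 m) b b ≤ ∑ k, b k ^ 2 := by
  rw [form_at2]
  have := pair_bound h hρ m m b b 1 one_pos
  refine this.trans (le_of_eq ?_)
  simp

lemma t3_le {s : ι → ℝ} {ρ : ℝ} (h : Sep s ρ) (hρ : 0 ≤ ρ) (m : ι) (b : ι → ℝ) :
    form s ρ (at1 m) b (at1 m) b ≤ ∑ k, b k ^ 2 := by
  rw [form_at2']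
  have h1 : ∀ j l, res s ρ m j m l * (b j * b l) ≤
      res s ρ m j m l * (b j ^ 2 / 2) + res s ρ m j m l * (b l ^ 2 / 2) := by
    intro j l
    rw [← mul_add]
    apply mul_le_mul_of_nonneg_left _ (res_nonneg _ _ _ _ _ _)
    nlinarith [sq_nonneg (b j - b l)]
  calc _ ≤ ∑ j, ∑ l, (res s ρ m j m l * (b j ^ 2 / 2) + res s ρ m j m l * (b l ^ 2 / 2)) :=
        Finset.sum_le_sum fun j _ => Finset.sum_le_sum fun l _ => h1 j l
    _ = ∑ j, (∑ l, res s ρ m j m l) * (b j ^ 2 / 2) + ∑ l, (∑ j, res s ρ m j m l) * (b l ^ 2 / 2) := by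
        simp only [Finset.sum_add_distrib, ← Finset.sum_mul]
        congr 1
        rw [Finset.sum_comm]
        simp only [← Finset.sum_mul]
    _ ≤ ∑ j, 1 * (b j ^ 2 / 2) + ∑ l, 1 * (b l ^ 2 / 2) := by
        apply add_le_add
        · apply Finset.sum_le_sum; intro k _
          apply mul_le_mul_of_nonneg_right (sum_res_last h hρ m k m) (by positivity)
        · apply Finset.sum_le_sum; intro k _
          apply mul_le_mul_of_nonneg_right (sum_res_second h hρ m m k) (by positivity)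
    _ = ∑ k, b k ^ 2 := by
        simp only [one_mul, ← Finset.sum_div]
        ring

lemma t4_le {s : ι → ℝ} {ρ : ℝ} (h : Sep s ρ) (hρ : 0 ≤ ρ) (m : ι) {y : ι → ℝ}
    (hy : ∀ i, 0 ≤ y i) (hy' : ∀ i, y i ≤ 1) :
    form s ρ (at1 m) (fun i => y i ^ 3) (fun i => y i ^ 3) (fun i => y i ^ 3)
      ≤ (∑ k, y k ^ 4) ^ 2 := by
  rw [form_at1]
  have h0 : ∀ u v w : ℝ, 0 ≤ u → 0 ≤ v → 0 ≤ w → u ≤ 1 → v ≤ 1 → w ≤ 1 →
      u ^ 3 * v ^ 3 * w ^ 3 ≤ u ^ 4 * v ^ 4 / 2 + u ^ 4 * w ^ 4 / 4 + v ^ 4 * w ^ 4 / 4 := by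
    intro u v w hu hv hw hu1 hv1 hw1
    have e1 : u ^ 3 * v ^ 3 * w ^ 3 ≤ (u ^ 4 * v ^ 4 + u ^ 2 * v ^ 2 * w ^ 6) / 2 := by
      nlinarith [sq_nonneg (u ^ 2 * v ^ 2 - u * v * w ^ 3)]
    have e2 : u ^ 2 * v ^ 2 ≤ (u ^ 4 + v ^ 4) / 2 := by nlinarith [sq_nonneg (u ^ 2 - v ^ 2)]
    have e3 : w ^ 6 ≤ w ^ 4 := pow_le_pow_of_le_one hw hw1 (by norm_num)
    have e4 : u ^ 2 * v ^ 2 * w ^ 6 ≤ (u ^ 4 + v ^ 4) / 2 * w ^ 4 :=
      mul_le_mul e2 e3 (by positivity) (by positivity)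
    nlinarith
  have h1 : ∀ j k l, res s ρ m j k l * (y j ^ 3 * y k ^ 3 * y l ^ 3) ≤
      res s ρ m j k l * (y j ^ 4 * y k ^ 4 / 2) + res s ρ m j k l * (y j ^ 4 * y l ^ 4 / 4) +
      res s ρ m j k l * (y k ^ 4 * y l ^ 4 / 4) := by
    intro j k l
    rw [← mul_add, ← mul_add]
    exact mul_le_mul_of_nonneg_left (h0 _ _ _ (hy _) (hy _) (hy _) (hy' _) (hy' _) (hy' _))
      (res_nonneg _ _ _ _ _ _)
  have hA : ∑ j, ∑ k, ∑ l, res s ρ m j k l * (y j ^ 4 * y k ^ 4 / 2) ≤ (∑ k, y k ^ 4) ^ 2 / 2 := by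
    calc _ = ∑ j, ∑ k, (∑ l, res s ρ m j k l) * (y j ^ 4 * y k ^ 4 / 2) := by
          simp only [← Finset.sum_mul]
      _ ≤ ∑ j, ∑ k, 1 * (y j ^ 4 * y k ^ 4 / 2) := by
          refine Finset.sum_le_sum fun j _ => Finset.sum_le_sum fun k _ => ?_
          exact mul_le_mul_of_nonneg_right (sum_res_last h hρ m j k) (by positivity)
      _ = _ := by
          simp only [one_mul, ← Finset.sum_div]
          rw [sq, Finset.sum_mul_sum]
  have hB : ∑ j, ∑ k, ∑ l, res s ρ m j k l * (y j ^ 4 * y l ^ 4 / 4) ≤ (∑ k, y k ^ 4) ^ 2 / 4 := by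
    calc _ = ∑ j, ∑ l, ∑ k, res s ρ m j k l * (y j ^ 4 * y l ^ 4 / 4) := by
          refine Finset.sum_congr rfl fun j _ => Finset.sum_comm
      _ = ∑ j, ∑ l, (∑ k, res s ρ m j k l) * (y j ^ 4 * y l ^ 4 / 4) := by
          simp only [← Finset.sum_mul]
      _ ≤ ∑ j, ∑ l, 1 * (y j ^ 4 * y l ^ 4 / 4) := by
          refine Finset.sum_le_sum fun j _ => Finset.sum_le_sum fun k _ => ?_
          exact mul_le_mul_of_nonneg_right (sum_res_third h hρ m j k) (by positivity)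
      _ = _ := by
          simp only [one_mul, ← Finset.sum_div]
          rw [sq, Finset.sum_mul_sum]
  have hC : ∑ j, ∑ k, ∑ l, res s ρ m j k l * (y k ^ 4 * y l ^ 4 / 4) ≤ (∑ k, y k ^ 4) ^ 2 / 4 := by
    calc _ = ∑ k, ∑ l, ∑ j, res s ρ m j k l * (y k ^ 4 * y l ^ 4 / 4) := by
          rw [Finset.sum_comm]
          refine Finset.sum_congr rfl fun j _ => Finset.sum_comm
      _ = ∑ k, ∑ l, (∑ j, res s ρ m j k l) * (y k ^ 4 * y l ^ 4 / 4) := by
          simp only [← Finset.sum_mul]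
      _ ≤ ∑ k, ∑ l, 1 * (y k ^ 4 * y l ^ 4 / 4) := by
          refine Finset.sum_le_sum fun j _ => Finset.sum_le_sum fun k _ => ?_
          exact mul_le_mul_of_nonneg_right (sum_res_second h hρ m j k) (by positivity)
      _ = _ := by
          simp only [one_mul, ← Finset.sum_div]
          rw [sq, Finset.sum_mul_sum]
  calc _ ≤ ∑ j, ∑ k, ∑ l, (res s ρ m j k l * (y j ^ 4 * y k ^ 4 / 2)
      + res s ρ m j k l * (y j ^ 4 * y l ^ 4 / 4) + res s ρ m j k l * (y k ^ 4 * y l ^ 4 / 4)) :=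
        Finset.sum_le_sum fun j _ => Finset.sum_le_sum fun k _ =>
          Finset.sum_le_sum fun l _ => h1 j k l
    _ = (∑ j, ∑ k, ∑ l, res s ρ m j k l * (y j ^ 4 * y k ^ 4 / 2)) +
        (∑ j, ∑ k, ∑ l, res s ρ m j k l * (y j ^ 4 * y l ^ 4 / 4)) +
        ∑ j, ∑ k, ∑ l, res s ρ m j k l * (y k ^ 4 * y l ^ 4 / 4) := by
        simp only [Finset.sum_add_distrib]
    _ ≤ _ := by linarith

lemma t5_le {s : ι → ℝ} {ρ : ℝ} (h : Sep s ρ) (hρ : 0 ≤ ρ) (y : ι → ℝ) :
    energy s ρ (fun i => y i ^ 3) ≤ (∑ k, y k ^ 4) ^ 3 := by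
  calc energy s ρ (fun i => y i ^ 3) ≤ ∑ i, ∑ j, y i ^ 4 * y j ^ 4 * kap s ρ y i j :=
        energy_le_kap s ρ y
    _ ≤ ∑ i, ∑ j, y i ^ 4 * y j ^ 4 * ∑ k, y k ^ 4 := by
        refine Finset.sum_le_sum fun i _ => Finset.sum_le_sum fun j _ => ?_
        exact mul_le_mul_of_nonneg_left (kap_le h hρ y i j) (by positivity)
    _ = _ := by
        simp only [← Finset.sum_mul]
        rw [← Finset.sum_mul_sum]
        ring

/-- case B, normalised -/
lemma energy_caseB {s : ι → ℝ} {ρ : ℝ} (h : Sep s ρ) (hρ : 0 ≤ ρ) {x : ι → ℝ}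
    (hx : ∀ i, 0 ≤ x i) {m : ι} (hm : x m = 1) {y : ι → ℝ}
    (hy : ∀ i, y i = if i = m then 0 else x i) (hy1 : ∀ i, y i ≤ 1) :
    energy s ρ (fun i => x i ^ 3) ≤
      1 + 6 * ∑ k, y k ^ 6 + 4 * (∑ k, y k ^ 4) ^ 2 + (∑ k, y k ^ 4) ^ 3 := by
  have hy0 : ∀ i, 0 ≤ y i := fun i => by rw [hy]; split_ifs <;> [exact le_refl _; exact hx i]
  have e1 : (fun i => x i ^ 3) = at1 m + fun i => y i ^ 3 := by
    funext i
    rw [Pi.add_apply, hy]
    by_cases hi : i = m
    · simp [at1, hi, hm]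
    · simp [at1, hi]
  have hbm : (fun i => y i ^ 3) m = 0 := by
    simp only [hy m, if_true]; norm_num
  rw [e1, energy_add]
  have k0 := t0_le (s := s) (ρ := ρ) m
  have k1 := t1_eq (b := fun i => y i ^ 3) h hρ m hbm
  have k2 := t2_le h hρ m (fun i => y i ^ 3)
  have k3 := t3_le h hρ m (fun i => y i ^ 3)
  have k4 := t4_le h hρ m hy0 hy1
  have k5 := t5_le h hρ y
  unfold energy at k5
  have e6 : ∀ k, (y k ^ 3) ^ 2 = y k ^ 6 := fun k => by ring
  simp only [e6] at k2 k3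
  linarith

end B

lemma form_smul (s : ι → ℝ) (ρ c : ℝ) (a : ι → ℝ) :
    energy s ρ (fun i => c * a i) = c ^ 4 * energy s ρ a := by
  unfold energy form
  simp only [Finset.mul_sum]
  refine Finset.sum_congr rfl fun i _ => Finset.sum_congr rfl fun j _ =>
    Finset.sum_congr rfl fun k _ => Finset.sum_congr rfl fun l _ => ?_
  ring

/-- Hölder: `(∑ x^4)^{p'} ≤ q^{p'-1} ∑ x^{4 p'}` -/
lemma holder_card {x : ι → ℝ} (hx : ∀ i, 0 ≤ x i) {θ : ℝ} (hθ : 0 ≤ θ) (hθ' : θ ≤ 1 / 2)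
    (hq : θ * Real.log (Fintype.card ι) ≤ 1 / 2 ^ 18) :
    (∑ i, x i ^ 4) ^ (3 / (3 - θ)) ≤
      Real.exp (1 / 2 ^ 18 / (3 - θ)) * ∑ i, x i ^ (12 / (3 - θ)) := by
  have h3 : 0 < 3 - θ := by linarith
  have hp : 1 ≤ 3 / (3 - θ) := by rw [le_div_iff₀ h3]; linarith
  have h1 := Real.rpow_sum_le_const_mul_sum_rpow_of_nonneg (s := Finset.univ) hp
    (f := fun i => x i ^ 4) (fun i _ => by positivity)
  refine h1.trans ?_
  have h2 : ∀ i, (x i ^ 4) ^ (3 / (3 - θ)) = x i ^ (12 / (3 - θ)) := by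
    intro i
    rw [← Real.rpow_natCast, ← Real.rpow_mul (hx i)]
    congr 1
    push_cast
    ring
  simp only [h2]
  apply mul_le_mul_of_nonneg_right _ (Finset.sum_nonneg fun i _ => Real.rpow_nonneg (hx i) _)
  have hcard : (Finset.univ : Finset ι).card = Fintype.card ι := rfl
  rw [hcard]
  rcases Nat.eq_zero_or_pos (Fintype.card ι) with h0 | h0
  · rw [h0]
    have e : (3 / (3 - θ) - 1) = θ / (3 - θ) := by field_simp; ring
    rw [e]
    have hle : (0 : ℝ) ≤ 1 / 2 ^ 18 / (3 - θ) := by positivity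
    rcases eq_or_lt_of_le hθ with h | h
    · rw [← h]; simp; positivity
    · rw [Nat.cast_zero, Real.zero_rpow (by positivity)]
      positivity
  · have hc : (0 : ℝ) < Fintype.card ι := by exact_mod_cast h0
    rw [Real.rpow_def_of_pos hc]
    apply Real.exp_le_exp.mpr
    have e : (3 / (3 - θ) - 1) = θ / (3 - θ) := by field_simp; ring
    rw [e]
    rw [show Real.log (Fintype.card ι) * (θ / (3 - θ)) = θ * Real.log (Fintype.card ι) / (3 - θ) by
      ring]
    gcongr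

/-- the final inequality in case B -/
lemma caseB_numeric {y : ι → ℝ} (hy : ∀ i, 0 ≤ y i) {θ : ℝ} (hθ : 0 ≤ θ) (hθ' : θ ≤ 1 / 2)
    (hq : θ * Real.log (Fintype.card ι) ≤ 1 / 2 ^ 18) (hY : ∑ i, y i ^ 4 ≤ 1 / 127) :
    1 + 6 * ∑ k, y k ^ 6 + 4 * (∑ k, y k ^ 4) ^ 2 + (∑ k, y k ^ 4) ^ 3 ≤
      (1 + ∑ i, y i ^ (12 / (3 - θ))) ^ (3 - θ) := by
  have h3 : 0 < 3 - θ := by linarith
  set X := ∑ i, y i ^ (12 / (3 - θ)) with hX
  set Y := ∑ i, y i ^ 4 with hYd
  have hX0 : 0 ≤ X := Finset.sum_nonneg fun i _ => Real.rpow_nonneg (hy i) _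
  have hY0 : 0 ≤ Y := Finset.sum_nonneg fun i _ => by positivity
  have hyi : ∀ i, y i ≤ 3 / 10 := by
    intro i
    by_contra hcon
    push Not at hcon
    have h1 : y i ^ 4 ≤ Y := Finset.single_le_sum (f := fun i => y i ^ 4)
      (fun j _ => by positivity) (Finset.mem_univ i)
    have h2 : (3 / 10 : ℝ) ^ 4 < y i ^ 4 := pow_lt_pow_left₀ hcon (by norm_num) (by norm_num)
    norm_num at h2
    linarith
  have hr : 12 / (3 - θ) ≤ 5 := by rw [div_le_iff₀ h3]; linarith
  have h6 : ∑ k, y k ^ 6 ≤ 3 / 10 * X := by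
    rw [hX, Finset.mul_sum]
    refine Finset.sum_le_sum fun i _ => ?_
    have h1 : y i ^ 5 ≤ y i ^ (12 / (3 - θ)) := by
      rcases eq_or_lt_of_le (hy i) with h | h
      · rw [← h]
        rw [Real.zero_rpow (by positivity)]
        norm_num
      · rw [← Real.rpow_natCast]
        apply Real.rpow_le_rpow_of_exponent_ge h (by linarith [hyi i])
        exact_mod_cast hr
    calc y i ^ 6 = y i * y i ^ 5 := by ring
      _ ≤ 3 / 10 * y i ^ (12 / (3 - θ)) :=
        mul_le_mul (hyi i) h1 (by have := hy i; positivity) (by norm_num)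
  -- `Y^{3/2} ≤ 1.01 X`
  have hYX : Y ^ (3 / 2 : ℝ) ≤ 101 / 100 * X := by
    have h1 := holder_card hy hθ hθ' hq
    rw [← hYd, ← hX] at h1
    have h2 : Y ^ (3 / 2 : ℝ) ≤ Y ^ (3 / (3 - θ)) := by
      rcases eq_or_lt_of_le hY0 with h | h
      · rw [← h, Real.zero_rpow (by norm_num), Real.zero_rpow (by positivity)]
      · apply Real.rpow_le_rpow_of_exponent_ge h (by linarith)
        rw [div_le_div_iff₀ h3 (by norm_num)]
        linarith
    have h4 : Real.exp (1 / 2 ^ 18 / (3 - θ)) ≤ 101 / 100 := by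
      have h5 : 1 / 2 ^ 18 / (3 - θ) ≤ 1 / 2 ^ 18 := by
        apply div_le_self (by norm_num); linarith
      refine (Real.exp_le_exp.mpr h5).trans ?_
      have h6 := Real.exp_bound_div_one_sub_of_interval (x := 1 / 2 ^ 18) (by norm_num) (by norm_num)
      refine h6.trans ?_
      norm_num
    calc Y ^ (3 / 2 : ℝ) ≤ Y ^ (3 / (3 - θ)) := h2
      _ ≤ Real.exp (1 / 2 ^ 18 / (3 - θ)) * X := h1
      _ ≤ _ := mul_le_mul_of_nonneg_right h4 hX0
  have hY2 : Y ^ 2 ≤ 1 / 10 * X := by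
    have e : Y ^ 2 = Y ^ (1 / 2 : ℝ) * Y ^ (3 / 2 : ℝ) := by
      rcases eq_or_lt_of_le hY0 with h | h
      · rw [← h, Real.zero_rpow (by norm_num)]; norm_num
      · rw [← Real.rpow_add h, ← Real.rpow_natCast]; norm_num
    have h1 : Y ^ (1 / 2 : ℝ) ≤ 9 / 100 := by
      rw [← Real.sqrt_eq_rpow]
      apply Real.sqrt_le_iff.mpr
      constructor
      · norm_num
      · refine hY.trans ?_
        norm_num
    rw [e]
    calc Y ^ (1 / 2 : ℝ) * Y ^ (3 / 2 : ℝ) ≤ 9 / 100 * (101 / 100 * X) :=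
          mul_le_mul h1 hYX (Real.rpow_nonneg hY0 _) (by norm_num)
      _ ≤ 1 / 10 * X := by nlinarith
  have hY3 : Y ^ 3 ≤ 1 / 10 * X := by
    have : Y ^ 3 = Y * Y ^ 2 := by ring
    rw [this]
    nlinarith [sq_nonneg Y]
  have hbern : 1 + (3 - θ) * X ≤ (1 + X) ^ (3 - θ) :=
    one_add_mul_self_le_rpow_one_add (by linarith) (by linarith)
  refine le_trans ?_ hbern
  nlinarith

/-- **Improved Young inequality for approximate resonances.** -/
theorem improved_young {s : ι → ℝ} {ρ : ℝ} (h : Sep s ρ) (hρ : 0 ≤ ρ) {θ : ℝ} (hθ : 0 ≤ θ)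
    (hθ' : θ ≤ 1 / 2) (hq : θ * Real.log (Fintype.card ι) ≤ 1 / 2 ^ 18) {a : ι → ℝ}
    (ha : ∀ i, 0 ≤ a i) :
    energy s ρ a ≤ (∑ i, a i ^ (4 / (3 - θ))) ^ (3 - θ) := by
  classical
  have h3 : 0 < 3 - θ := by linarith
  -- the cube roots
  set x : ι → ℝ := fun i => a i ^ (1 / 3 : ℝ) with hx
  have hx0 : ∀ i, 0 ≤ x i := fun i => Real.rpow_nonneg (ha i) _
  have hxa : ∀ i, x i ^ 3 = a i := by
    intro i
    simp only [hx]
    rw [← Real.rpow_natCast, ← Real.rpow_mul (ha i)]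
    norm_num
  have hxr : ∀ i, x i ^ (12 / (3 - θ)) = a i ^ (4 / (3 - θ)) := by
    intro i
    simp only [hx]
    rw [← Real.rpow_mul (ha i)]
    congr 1
    field_simp
    norm_num
  have ea : a = fun i => x i ^ 3 := by funext i; rw [hxa]
  simp only [← hxr]
  rw [ea]
  -- the total mass
  by_cases hz : ∑ i, x i ^ 4 = 0
  · have h1 := t5_le h hρ x
    rw [hz] at h1
    refine h1.trans ?_
    rw [zero_pow (by norm_num)]
    exact Real.rpow_nonneg (Finset.sum_nonneg fun i _ => Real.rpow_nonneg (hx0 i) _) _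
  have hZ : 0 < ∑ i, x i ^ 4 := lt_of_le_of_ne
    (Finset.sum_nonneg fun i _ => by positivity) (Ne.symm hz)
  set Z := ∑ i, x i ^ 4 with hZd
  -- scaling
  have scale : ∀ c : ℝ, 0 < c →
      (energy s ρ (fun i => (c * x i) ^ 3) ≤ (∑ i, (c * x i) ^ (12 / (3 - θ))) ^ (3 - θ)) →
      energy s ρ (fun i => x i ^ 3) ≤ (∑ i, x i ^ (12 / (3 - θ))) ^ (3 - θ) := by
    intro c hc hle
    have e1 : energy s ρ (fun i => (c * x i) ^ 3) = c ^ 12 * energy s ρ (fun i => x i ^ 3) := by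
      have : (fun i => (c * x i) ^ 3) = fun i => c ^ 3 * x i ^ 3 := by funext i; ring
      rw [this, form_smul]
      ring
    have e2 : (∑ i, (c * x i) ^ (12 / (3 - θ))) ^ (3 - θ) =
        c ^ 12 * (∑ i, x i ^ (12 / (3 - θ))) ^ (3 - θ) := by
      have : ∀ i, (c * x i) ^ (12 / (3 - θ)) = c ^ (12 / (3 - θ)) * x i ^ (12 / (3 - θ)) :=
        fun i => Real.mul_rpow hc.le (hx0 i)
      simp only [this]
      rw [← Finset.mul_sum, Real.mul_rpow (Real.rpow_nonneg hc.le _)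
        (Finset.sum_nonneg fun i _ => Real.rpow_nonneg (hx0 i) _), ← Real.rpow_mul hc.le]
      congr 1
      rw [← Real.rpow_natCast]
      congr 1
      field_simp
      norm_num
    rw [e1, e2] at hle
    exact le_of_mul_le_mul_left hle (by positivity)
  -- normalise the mass
  have hZ4 : 0 < Z ^ (-(1 / 4 : ℝ)) := Real.rpow_pos_of_pos hZ _
  set c := Z ^ (-(1 / 4 : ℝ)) with hc
  have hc4 : c ^ 4 * Z = 1 := by
    rw [hc, ← Real.rpow_natCast, ← Real.rpow_mul hZ.le]
    norm_num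
    rw [Real.rpow_neg_one]
    exact inv_mul_cancel₀ hZ.ne'
  have hcsum : ∑ i, (c * x i) ^ 4 = 1 := by
    have : ∀ i, (c * x i) ^ 4 = c ^ 4 * x i ^ 4 := fun i => by ring
    simp only [this]
    rw [← Finset.mul_sum, ← hZd]
    exact hc4
  have hcx : ∀ i, 0 ≤ c * x i := fun i => mul_nonneg hZ4.le (hx0 i)
  rcases energy_dichotomy h hρ hcsum with hA | ⟨m, hm⟩
  · -- case A
    apply scale c hZ4
    refine hA.trans ?_
    have h1 := holder_card hcx hθ hθ' hq
    rw [hcsum, Real.one_rpow] at h1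
    have h2 : (Real.exp (1 / 2 ^ 18 / (3 - θ)))⁻¹ ≤ ∑ i, (c * x i) ^ (12 / (3 - θ)) := by
      rw [inv_le_iff_one_le_mul₀ (Real.exp_pos _)]
      rw [mul_comm]
      exact h1
    have h4 : ((Real.exp (1 / 2 ^ 18 / (3 - θ)))⁻¹) ^ (3 - θ) ≤
        (∑ i, (c * x i) ^ (12 / (3 - θ))) ^ (3 - θ) :=
      Real.rpow_le_rpow (by positivity) h2 h3.le
    refine le_trans ?_ h4
    rw [← Real.exp_neg, ← Real.exp_mul]
    have e : -(1 / 2 ^ 18 / (3 - θ)) * (3 - θ) = -(1 / 2 ^ 18) := by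
      field_simp
    rw [e]
    have := Real.add_one_le_exp (-(1 / 2 ^ 18 : ℝ))
    linarith
  · -- case B
    have hm0 : 0 < c * x m := by
      rcases eq_or_lt_of_le (hcx m) with h0 | h0
      · rw [← h0] at hm; norm_num at hm
      · exact h0
    have hxm : 0 < x m := by
      rcases eq_or_lt_of_le (hx0 m) with h0 | h0
      · rw [← h0] at hm0; simp at hm0
      · exact h0
    apply scale (x m)⁻¹ (inv_pos.mpr hxm)
    set x' : ι → ℝ := fun i => (x m)⁻¹ * x i with hx'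
    have hx'0 : ∀ i, 0 ≤ x' i := fun i => mul_nonneg (inv_pos.mpr hxm).le (hx0 i)
    have hx'm : x' m = 1 := by simp only [hx']; exact inv_mul_cancel₀ hxm.ne'
    set y : ι → ℝ := fun i => if i = m then 0 else x' i with hy
    have hy0 : ∀ i, 0 ≤ y i := fun i => by simp only [hy]; split_ifs <;> [exact le_refl _; exact hx'0 i]
    have hsplit : ∀ f : ℝ → ℝ, f 0 = 0 → ∑ i, f (x' i) = f 1 + ∑ i, f (y i) := by
      intro f hf
      rw [← Finset.add_sum_erase Finset.univ (fun i => f (x' i)) (Finset.mem_univ m),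
        ← Finset.add_sum_erase Finset.univ (fun i => f (y i)) (Finset.mem_univ m)]
      rw [hx'm]
      have h1 : f (y m) = 0 := by simp only [hy, if_true]; exact hf
      rw [h1, zero_add]
      congr 1
      refine Finset.sum_congr rfl fun i hi => ?_
      simp only [hy]
      rw [if_neg (Finset.ne_of_mem_erase hi)]
    have hY : ∑ i, y i ^ 4 ≤ 1 / 127 := by
      have h1 := hsplit (fun t => t ^ 4) (by norm_num)
      simp only [one_pow] at h1
      have h2 : ∑ i, x' i ^ 4 = ((c * x m) ^ 4)⁻¹ * ∑ i, (c * x i) ^ 4 := by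
        rw [Finset.mul_sum]
        refine Finset.sum_congr rfl fun i _ => ?_
        simp only [hx']
        have := hZ4.ne'
        have := hxm.ne'
        field_simp
      rw [hcsum, mul_one] at h2
      have h4 : ((c * x m) ^ 4)⁻¹ ≤ 128 / 127 := by
        rw [inv_le_comm₀ (by positivity) (by norm_num)]
        norm_num
        linarith
      linarith
    have hy1 : ∀ i, y i ≤ 1 := by
      intro i
      by_contra hcon
      push Not at hcon
      have h1 : y i ^ 4 ≤ ∑ i, y i ^ 4 := Finset.single_le_sum (f := fun i => y i ^ 4)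
        (fun j _ => by positivity) (Finset.mem_univ i)
      have h2 : (1 : ℝ) ^ 4 < y i ^ 4 := pow_lt_pow_left₀ hcon (by norm_num) (by norm_num)
      norm_num at h2
      linarith
    refine (energy_caseB h hρ hx'0 hx'm (fun i => rfl) hy1).trans ?_
    refine (caseB_numeric hy0 hθ hθ' hq hY).trans (le_of_eq ?_)
    congr 1
    have h1 := hsplit (fun t => t ^ (12 / (3 - θ))) (Real.zero_rpow (by positivity))
    simp only [Real.one_rpow] at h1
    exact h1.symm

/-- **node inequality** -/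
theorem node_ineq {s : ι → ℝ} {ρ : ℝ} (h : Sep s ρ) (hρ : 0 ≤ ρ) {θ : ℝ} (hθ : 0 ≤ θ)
    (hθ' : θ ≤ 1 / 2) (hq : θ * Real.log (Fintype.card ι) ≤ 1 / 2 ^ 18) {a : ι → ℝ}
    (ha : ∀ i, 0 ≤ a i) {N : ι → ℝ} (hN : ∀ i, 0 < N i) :
    energy s ρ a ≤ (∑ i, N i) ^ (2 - θ) * ∑ i, a i ^ 4 / N i ^ (2 - θ) := by
  have h3 : 0 < 3 - θ := by linarith
  have h2 : 0 < 2 - θ := by linarith
  refine (improved_young h hρ hθ hθ' hq ha).trans ?_
  -- Hölder with exponents `3 - θ` and `(3-θ)/(2-θ)`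
  have hpq : (3 - θ).HolderConjugate ((3 - θ) / (2 - θ)) := by
    rw [Real.holderConjugate_iff]
    refine ⟨by linarith, ?_⟩
    field_simp
    ring
  have hH := Real.inner_le_Lp_mul_Lq_of_nonneg Finset.univ hpq
    (f := fun i => (a i ^ 4 / N i ^ (2 - θ)) ^ (1 / (3 - θ)))
    (g := fun i => N i ^ ((2 - θ) / (3 - θ)))
    (fun i _ => Real.rpow_nonneg (div_nonneg (by have := ha i; positivity)
      (Real.rpow_nonneg (hN i).le _)) _)
    (fun i _ => Real.rpow_nonneg (hN i).le _)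
  have e1 : ∀ i, (a i ^ 4 / N i ^ (2 - θ)) ^ (1 / (3 - θ)) * N i ^ ((2 - θ) / (3 - θ)) =
      a i ^ (4 / (3 - θ)) := by
    intro i
    rw [Real.div_rpow (by have := ha i; positivity) (Real.rpow_nonneg (hN i).le _),
      ← Real.rpow_mul (hN i).le, ← Real.rpow_natCast, ← Real.rpow_mul (ha i)]
    rw [show (2 - θ) * (1 / (3 - θ)) = (2 - θ) / (3 - θ) by ring]
    rw [div_mul_cancel₀ _ (Real.rpow_pos_of_pos (hN i) _).ne']
    congr 1
    push_cast
    ring
  have e2 : ∀ i, ((a i ^ 4 / N i ^ (2 - θ)) ^ (1 / (3 - θ))) ^ (3 - θ) =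
      a i ^ 4 / N i ^ (2 - θ) := by
    intro i
    rw [← Real.rpow_mul (div_nonneg (by have := ha i; positivity) (Real.rpow_nonneg (hN i).le _))]
    rw [one_div_mul_cancel h3.ne', Real.rpow_one]
  have e3 : ∀ i, (N i ^ ((2 - θ) / (3 - θ))) ^ ((3 - θ) / (2 - θ)) = N i := by
    intro i
    rw [← Real.rpow_mul (hN i).le]
    rw [show (2 - θ) / (3 - θ) * ((3 - θ) / (2 - θ)) = 1 by field_simp, Real.rpow_one]
  simp only [e1, e2, e3] at hH
  have hS : 0 ≤ ∑ i, a i ^ 4 / N i ^ (2 - θ) := Finset.sum_nonneg fun i _ =>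
    div_nonneg (by have := ha i; positivity) (Real.rpow_nonneg (hN i).le _)
  have hN' : 0 ≤ ∑ i, N i := Finset.sum_nonneg fun i _ => (hN i).le
  calc (∑ i, a i ^ (4 / (3 - θ))) ^ (3 - θ)
      ≤ ((∑ i, a i ^ 4 / N i ^ (2 - θ)) ^ (1 / (3 - θ)) *
        (∑ i, N i) ^ (1 / ((3 - θ) / (2 - θ)))) ^ (3 - θ) :=
        Real.rpow_le_rpow (Finset.sum_nonneg fun i _ => Real.rpow_nonneg (ha i) _) hH h3.le
    _ = (∑ i, N i) ^ (2 - θ) * ∑ i, a i ^ 4 / N i ^ (2 - θ) := by
        rw [Real.mul_rpow (Real.rpow_nonneg hS _) (Real.rpow_nonneg hN' _),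
          ← Real.rpow_mul hS, ← Real.rpow_mul hN', one_div_mul_cancel h3.ne', Real.rpow_one]
        rw [show 1 / ((3 - θ) / (2 - θ)) * (3 - θ) = 2 - θ by field_simp]
        ring

end Vale.Agent.P112.G
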